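import Mathlib

/-! Explicit bump functions with explicit derivatives of all orders. -/

namespace Vale.Agent.P113

open Set Filter Topology
open scoped ContDiff

/-- `x^{-m} e^{-1/x}` for `x > 0`, and `0` for `x ≤ 0`. -/
noncomputable def em (m : ℕ) (x : ℝ) : ℝ := (x⁻¹) ^ m * expNegInvGlue x

lemma em_of_nonpos {m : ℕ} {x : ℝ} (hx : x ≤ 0) : em m x = 0 := by
  rw [em, expNegInvGlue.zero_of_nonpos hx, mul_zero]

lemma em_zero_pos {x : ℝ} (hx : 0 < x) : 0 < em 0 x := by
  rw [em, pow_zero, one_mul]; exact expNegInvGlue.pos_of_pos hx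

lemma em_zero_nonneg (x : ℝ) : 0 ≤ em 0 x := by
  rw [em, pow_zero, one_mul]; exact expNegInvGlue.nonneg x

lemma em_of_pos {m : ℕ} {x : ℝ} (hx : 0 < x) : em m x = (x⁻¹) ^ m * Real.exp (-x⁻¹) := by
  rw [em, expNegInvGlue, if_neg (not_le.mpr hx)]

lemma hasDerivAt_em (m : ℕ) (x : ℝ) :
    HasDerivAt (em m) (em (m + 2) x - m * em (m + 1) x) x := by
  have h := expNegInvGlue.hasDerivAt_polynomial_eval_inv_mul (Polynomial.X ^ m) x
  have e1 : (fun x : ℝ => (Polynomial.X ^ m : Polynomial ℝ).eval x⁻¹ * expNegInvGlue x) = em m := by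
    funext y; simp [em]
  rw [e1] at h
  refine h.congr_deriv ?_
  simp only [em, Polynomial.eval_mul, Polynomial.eval_sub, Polynomial.eval_pow, Polynomial.eval_X,
    Polynomial.derivative_X_pow, Polynomial.eval_C]
  rcases m with _ | m
  · simp
  · simp only [Nat.add_sub_cancel]
    push_cast
    ring

lemma abs_em_le (m : ℕ) (x : ℝ) : |em m x| ≤ m.factorial := by
  rcases le_or_gt x 0 with hx | hx
  · rw [em_of_nonpos hx]; simp
  · rw [em_of_pos hx, abs_of_nonneg (by positivity)]
    have h := Real.pow_div_factorial_le_exp (x := x⁻¹) (by positivity) m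
    have hf : (0 : ℝ) < m.factorial := by exact_mod_cast m.factorial_pos
    rw [div_le_iff₀ hf] at h
    rw [Real.exp_neg]
    rw [← div_eq_mul_inv, div_le_iff₀ (Real.exp_pos _)]
    linarith

/-- product of two one-sided functions: supported in `(l, r)` -/
noncomputable def bm (m m' : ℕ) (l r x : ℝ) : ℝ := em m (x - l) * em m' (r - x)

lemma bm_of_le {m m' : ℕ} {l r x : ℝ} (h : x ≤ l) : bm m m' l r x = 0 := by
  rw [bm, em_of_nonpos (by linarith), zero_mul]

lemma bm_of_ge {m m' : ℕ} {l r x : ℝ} (h : r ≤ x) : bm m m' l r x = 0 := by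
  rw [bm, em_of_nonpos (x := r - x) (by linarith), mul_zero]

lemma bm_pos {l r x : ℝ} (h1 : l < x) (h2 : x < r) : 0 < bm 0 0 l r x :=
  mul_pos (em_zero_pos (by linarith)) (em_zero_pos (by linarith))

lemma bm_nonneg (l r x : ℝ) : 0 ≤ bm 0 0 l r x :=
  mul_nonneg (em_zero_nonneg _) (em_zero_nonneg _)

lemma abs_bm_le (m m' : ℕ) (l r x : ℝ) : |bm m m' l r x| ≤ m.factorial * m'.factorial := by
  rw [bm, abs_mul]
  exact mul_le_mul (abs_em_le _ _) (abs_em_le _ _) (abs_nonneg _) (by positivity)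

lemma hasDerivAt_bm (m m' : ℕ) (l r x : ℝ) :
    HasDerivAt (bm m m' l r)
      (bm (m + 2) m' l r x - m * bm (m + 1) m' l r x - bm m (m' + 2) l r x
        + m' * bm m (m' + 1) l r x) x := by
  have h1 : HasDerivAt (fun y => em m (y - l)) (em (m + 2) (x - l) - m * em (m + 1) (x - l)) x :=
    (hasDerivAt_em m (x - l)).comp_sub_const x l
  have h2 : HasDerivAt (fun y => em m' (r - y))
      (-(em (m' + 2) (r - x) - m' * em (m' + 1) (r - x))) x :=
    (hasDerivAt_em m' (r - x)).comp_const_sub r x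
  refine (h1.mul h2).congr_deriv ?_
  simp only [bm]
  ring

/-- a formal term `(c⁺ - c⁻) * bm m m'` -/
abbrev Term := (ℕ × ℕ) × ℕ × ℕ

/-- value of a formal term -/
noncomputable def evalT (l r x : ℝ) (t : Term) : ℝ :=
  ((t.1.1 : ℝ) - t.1.2) * bm t.2.1 t.2.2 l r x

/-- derivative of a formal term -/
def dterm (t : Term) : List Term :=
  [((t.1.1, t.1.2), t.2.1 + 2, t.2.2), ((t.2.1 * t.1.2, t.2.1 * t.1.1), t.2.1 + 1, t.2.2),
   ((t.1.2, t.1.1), t.2.1, t.2.2 + 2), ((t.2.2 * t.1.1, t.2.2 * t.1.2), t.2.1, t.2.2 + 1)]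

/-- the formal `j`-th derivative of the basic bump -/
def Lt : ℕ → List Term
  | 0 => [((1, 0), 0, 0)]
  | j + 1 => (Lt j).flatMap dterm

/-- the `j`-th derivative of the basic bump -/
noncomputable def Bj (j : ℕ) (l r x : ℝ) : ℝ := ((Lt j).map (evalT l r x)).sum

lemma hasDerivAt_evalT (l r x : ℝ) (t : Term) :
    HasDerivAt (fun y => evalT l r y t) (((dterm t).map (evalT l r x)).sum) x := by
  unfold evalT
  have h := (hasDerivAt_bm t.2.1 t.2.2 l r x).const_mul ((t.1.1 : ℝ) - t.1.2)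
  refine h.congr_deriv ?_
  simp [dterm]
  ring

lemma hasDerivAt_list (l r x : ℝ) (L : List Term) :
    HasDerivAt (fun y => (L.map (evalT l r y)).sum) (((L.flatMap dterm).map (evalT l r x)).sum) x := by
  induction L with
  | nil => simpa using hasDerivAt_const x (0 : ℝ)
  | cons t L ih =>
    simp only [List.map_cons, List.sum_cons, List.flatMap_cons, List.map_append, List.sum_append]
    exact (hasDerivAt_evalT l r x t).add ih

lemma hasDerivAt_Bj (j : ℕ) (l r x : ℝ) : HasDerivAt (Bj j l r) (Bj (j + 1) l r x) x :=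
  hasDerivAt_list l r x (Lt j)

lemma Bj_zero (l r x : ℝ) : Bj 0 l r x = bm 0 0 l r x := by
  simp [Bj, Lt, evalT]

lemma Bj_of_le {j : ℕ} {l r x : ℝ} (h : x ≤ l) : Bj j l r x = 0 := by
  unfold Bj
  apply List.sum_eq_zero
  intro y hy
  obtain ⟨t, _, rfl⟩ := List.mem_map.mp hy
  rw [evalT, bm_of_le h, mul_zero]

lemma Bj_of_ge {j : ℕ} {l r x : ℝ} (h : r ≤ x) : Bj j l r x = 0 := by
  unfold Bj
  apply List.sum_eq_zero
  intro y hy
  obtain ⟨t, _, rfl⟩ := List.mem_map.mp hy
  rw [evalT, bm_of_ge h, mul_zero]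

/-- uniform bounds for the derivatives -/
lemma Bj_bound (j : ℕ) : ∃ C : ℝ, 0 ≤ C ∧ ∀ l r x, |Bj j l r x| ≤ C := by
  have key : ∀ L : List Term, ∃ C : ℝ, 0 ≤ C ∧ ∀ l r x, |(L.map (evalT l r x)).sum| ≤ C := by
    intro L
    induction L with
    | nil => exact ⟨0, le_rfl, fun l r x => by simp⟩
    | cons t L ih =>
      obtain ⟨C, hC, h⟩ := ih
      refine ⟨|(t.1.1 : ℝ) - t.1.2| * (t.2.1.factorial * t.2.2.factorial) + C, by positivity, ?_⟩
      intro l r x
      rw [List.map_cons, List.sum_cons]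
      refine (abs_add_le _ _).trans (add_le_add ?_ (h l r x))
      rw [evalT, abs_mul]
      exact mul_le_mul_of_nonneg_left (abs_bm_le _ _ _ _ _) (abs_nonneg _)
  exact key (Lt j)

/-- A family of functions each of which is the derivative of the preceding one. -/
def IsTower (F : ℕ → ℝ → ℝ) : Prop := ∀ j x, HasDerivAt (F j) (F (j + 1) x) x

lemma isTower_Bj (l r : ℝ) : IsTower (fun j => Bj j l r) := fun j x => hasDerivAt_Bj j l r x

lemma IsTower.contDiff {F : ℕ → ℝ → ℝ} (hF : IsTower F) (j : ℕ) : ContDiff ℝ ∞ (F j) := by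
  rw [contDiff_infty]
  intro n
  induction n generalizing j with
  | zero =>
    rw [Nat.cast_zero, contDiff_zero]
    exact continuous_iff_continuousAt.mpr fun x => (hF j x).continuousAt
  | succ n ih =>
    rw [Nat.cast_add, Nat.cast_one, contDiff_succ_iff_deriv]
    refine ⟨fun x => (hF j x).differentiableAt, by simp, ?_⟩
    have : deriv (F j) = F (j + 1) := funext fun x => (hF j x).deriv
    rw [this]
    exact ih (j + 1)

/-- periodization of a tower supported in `[0,1]` -/
lemma IsTower.periodize {F : ℕ → ℝ → ℝ} (hF : IsTower F) (h0 : ∀ j x, x ≤ 0 → F j x = 0)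
    (h1 : ∀ j x, 1 ≤ x → F j x = 0) : IsTower (fun j x => F j (Int.fract x)) := by
  intro j x
  set n : ℤ := ⌊x⌋ with hn
  have hx1 : (n : ℝ) ≤ x := Int.floor_le x
  have hx2 : x < n + 1 := Int.lt_floor_add_one x
  have hder : HasDerivAt (fun y => F j (y - n) + F j (y - (n - 1)))
      (F (j + 1) (x - n) + F (j + 1) (x - (n - 1))) x :=
    ((hF j (x - n)).comp_sub_const x n).add ((hF j (x - (n - 1))).comp_sub_const x (n - 1))
  have hev : (fun y => F j (Int.fract y)) =ᶠ[𝓝 x] fun y => F j (y - n) + F j (y - (n - 1)) := by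
    filter_upwards [Ioo_mem_nhds (show (n : ℝ) - 1 < x by linarith) hx2] with y hy
    rcases lt_or_ge y n with h | h
    · have hf : ⌊y⌋ = n - 1 := by
        rw [Int.floor_eq_iff]; push_cast; constructor <;> linarith [hy.1]
      have : Int.fract y = y - (n - 1) := by
        rw [← Int.self_sub_floor, hf]; push_cast; ring
      rw [this, h0 j (y - n) (by linarith), zero_add]
    · have hf : ⌊y⌋ = n := by
        rw [Int.floor_eq_iff]; constructor <;> linarith [hy.2]
      have : Int.fract y = y - n := by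
        rw [← Int.self_sub_floor, hf]
      rw [this, h1 j (y - (n - 1)) (by linarith), add_zero]
  have hval : F (j + 1) (x - n) + F (j + 1) (x - (n - 1)) = F (j + 1) (Int.fract x) := by
    rw [h1 (j + 1) (x - (n - 1)) (by linarith), add_zero, ← Int.self_sub_floor, hn]
  have := hder.congr_of_eventuallyEq hev
  rw [hval] at this
  exact this

end Vale.Agent.P113
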