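import Vale.Agent.P113.Defs

/-! Computable real-valued functions on discrete types, with closure properties. -/

namespace Vale.Agent.P113

/-- codes of rationals -/
abbrev Q3 := ℕ × ℕ × ℕ

/-- value of a code -/
noncomputable def rv (r : Q3) : ℝ := ((r.1 : ℝ) - r.2.1) / (r.2.2 + 1)

lemma rv_eq (r : Q3) : rv r = (ratVal r : ℚ) := by
  unfold rv ratVal; push_cast; rfl

section comb

variable {α β : Type} [Primcodable α] [Primcodable β]

lemma cadd {f g : α → ℕ} (hf : Computable f) (hg : Computable g) : Computable fun x => f x + g x :=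
  Primrec.nat_add.to_comp.comp hf hg
lemma csub {f g : α → ℕ} (hf : Computable f) (hg : Computable g) : Computable fun x => f x - g x :=
  Primrec.nat_sub.to_comp.comp hf hg
lemma cmul {f g : α → ℕ} (hf : Computable f) (hg : Computable g) : Computable fun x => f x * g x :=
  Primrec.nat_mul.to_comp.comp hf hg
lemma cmod {f g : α → ℕ} (hf : Computable f) (hg : Computable g) : Computable fun x => f x % g x :=
  Primrec.nat_mod.to_comp.comp hf hg

lemma primrec_pow : Primrec₂ (fun a b : ℕ => a ^ b) :=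
  (Primrec₂.unpaired'.mp Nat.Primrec.pow)

lemma cpow {f g : α → ℕ} (hf : Computable f) (hg : Computable g) : Computable fun x => f x ^ g x :=
  primrec_pow.to_comp.comp hf hg
lemma clt {f g : α → ℕ} (hf : Computable f) (hg : Computable g) :
    Computable fun x => decide (f x < g x) :=
  (Primrec.nat_lt.decide).to_comp.comp hf hg
lemma ccst (n : ℕ) : Computable fun _ : α => n := Computable.const n

end comb

/-- addition of codes -/
def qadd (r s : Q3) : Q3 :=
  (r.1 * (s.2.2 + 1) + s.1 * (r.2.2 + 1), r.2.1 * (s.2.2 + 1) + s.2.1 * (r.2.2 + 1),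
    (r.2.2 + 1) * (s.2.2 + 1) - 1)
/-- negation of codes -/
def qneg (r : Q3) : Q3 := (r.2.1, r.1, r.2.2)
/-- multiplication of codes -/
def qmul (r s : Q3) : Q3 :=
  (r.1 * s.1 + r.2.1 * s.2.1, r.1 * s.2.1 + r.2.1 * s.1, (r.2.2 + 1) * (s.2.2 + 1) - 1)

lemma cast_sub_one {n : ℕ} (h : 0 < n) : ((n - 1 : ℕ) : ℝ) + 1 = n := by
  have : n - 1 + 1 = n := by omega
  exact_mod_cast this

lemma rv_qadd (r s : Q3) : rv (qadd r s) = rv r + rv s := by
  unfold rv qadd
  simp only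
  rw [cast_sub_one (by positivity)]
  push_cast
  have h1 : (r.2.2 : ℝ) + 1 ≠ 0 := by positivity
  have h2 : (s.2.2 : ℝ) + 1 ≠ 0 := by positivity
  field_simp
  ring

lemma rv_qneg (r : Q3) : rv (qneg r) = -rv r := by
  unfold rv qneg
  simp only
  ring

lemma rv_qmul (r s : Q3) : rv (qmul r s) = rv r * rv s := by
  unfold rv qmul
  simp only
  rw [cast_sub_one (by positivity)]
  push_cast
  have h1 : (r.2.2 : ℝ) + 1 ≠ 0 := by positivity
  have h2 : (s.2.2 : ℝ) + 1 ≠ 0 := by positivity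
  field_simp
  ring

lemma abs_rv_le (r : Q3) : |rv r| ≤ r.1 + r.2.1 := by
  unfold rv
  rw [abs_div, div_le_iff₀ (by positivity), abs_of_pos (show (0:ℝ) < r.2.2 + 1 by positivity)]
  have h1 : |(r.1 : ℝ) - r.2.1| ≤ r.1 + r.2.1 := by
    rw [abs_le]; constructor <;> nlinarith [Nat.cast_nonneg (α := ℝ) r.1, Nat.cast_nonneg (α := ℝ) r.2.1]
  have h2 : (0 : ℝ) ≤ (r.1 + r.2.1) * r.2.2 := by positivity
  nlinarith

section comb

variable {α β : Type} [Primcodable α] [Primcodable β]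

lemma c1 {r : α → Q3} (hr : Computable r) : Computable fun x => (r x).1 := Computable.fst.comp hr
lemma c2 {r : α → Q3} (hr : Computable r) : Computable fun x => (r x).2.1 :=
  Computable.fst.comp (Computable.snd.comp hr)
lemma c3 {r : α → Q3} (hr : Computable r) : Computable fun x => (r x).2.2 :=
  Computable.snd.comp (Computable.snd.comp hr)
lemma c3' {r : α → Q3} (hr : Computable r) : Computable fun x => (r x).2.2 + 1 :=
  cadd (c3 hr) (ccst 1)

lemma cqadd {r s : α → Q3} (hr : Computable r) (hs : Computable s) :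
    Computable fun x => qadd (r x) (s x) :=
  (cadd (cmul (c1 hr) (c3' hs)) (cmul (c1 hs) (c3' hr))).pair
    ((cadd (cmul (c2 hr) (c3' hs)) (cmul (c2 hs) (c3' hr))).pair
      (csub (cmul (c3' hr) (c3' hs)) (ccst 1)))

lemma cqmul {r s : α → Q3} (hr : Computable r) (hs : Computable s) :
    Computable fun x => qmul (r x) (s x) :=
  (cadd (cmul (c1 hr) (c1 hs)) (cmul (c2 hr) (c2 hs))).pair
    ((cadd (cmul (c1 hr) (c2 hs)) (cmul (c2 hr) (c1 hs))).pair
      (csub (cmul (c3' hr) (c3' hs)) (ccst 1)))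

lemma cqneg {r : α → Q3} (hr : Computable r) : Computable fun x => qneg (r x) :=
  (c2 hr).pair ((c1 hr).pair (c3 hr))

end comb

/-- Computable real-valued functions. -/
def CRF {α : Type} [Primcodable α] (f : α → ℝ) : Prop :=
  ∃ A : α × ℕ → Q3, Computable A ∧ ∀ x n, |f x - rv (A (x, n))| ≤ (1 / 2) ^ n

section CRF

variable {α β : Type} [Primcodable α] [Primcodable β]

lemma CRF.congr {f g : α → ℝ} (hf : CRF f) (h : ∀ x, g x = f x) : CRF g := by
  have : g = f := funext h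
  rwa [this]

lemma CRF.of_rat {r : α → Q3} (hr : Computable r) : CRF (fun x => rv (r x)) :=
  ⟨fun p => r p.1, hr.comp Computable.fst, fun x n => by simp⟩

lemma CRF.zero : CRF (fun _ : α => 0) := by
  refine (CRF.of_rat (r := fun _ : α => ((0, 0, 0) : Q3)) (Computable.const _)).congr fun x => ?_
  simp [rv]

lemma CRF.comp {f : β → ℝ} (hf : CRF f) {h : α → β} (hh : Computable h) :
    CRF (fun x => f (h x)) := by
  obtain ⟨A, hA, hb⟩ := hf
  exact ⟨fun p => A (h p.1, p.2), hA.comp ((hh.comp Computable.fst).pair Computable.snd),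
    fun x n => hb (h x) n⟩

lemma CRF.add {f g : α → ℝ} (hf : CRF f) (hg : CRF g) : CRF (fun x => f x + g x) := by
  obtain ⟨A, hA, ha⟩ := hf
  obtain ⟨B, hB, hb⟩ := hg
  have hs : Computable fun p : α × ℕ => (p.1, p.2 + 1) :=
    Computable.fst.pair (cadd Computable.snd (ccst 1))
  refine ⟨fun p => qadd (A (p.1, p.2 + 1)) (B (p.1, p.2 + 1)), cqadd (hA.comp hs) (hB.comp hs), ?_⟩
  intro x n
  simp only
  rw [rv_qadd]
  have h1 := ha x (n + 1)
  have h2 := hb x (n + 1)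
  have h3 : f x + g x - (rv (A (x, n + 1)) + rv (B (x, n + 1))) =
    (f x - rv (A (x, n + 1))) + (g x - rv (B (x, n + 1))) := by ring
  rw [h3]
  refine (abs_add_le _ _).trans ?_
  have h4 : (1 / 2 : ℝ) ^ n = (1 / 2) ^ (n + 1) + (1 / 2) ^ (n + 1) := by rw [pow_succ]; ring
  linarith

lemma CRF.neg {f : α → ℝ} (hf : CRF f) : CRF (fun x => -f x) := by
  obtain ⟨A, hA, ha⟩ := hf
  refine ⟨fun p => qneg (A p), cqneg hA, ?_⟩
  intro x n
  simp only
  rw [rv_qneg]
  have h1 := ha x n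
  rw [show -f x - -rv (A (x, n)) = -(f x - rv (A (x, n))) by ring, abs_neg]
  exact h1

lemma CRF.sub {f g : α → ℝ} (hf : CRF f) (hg : CRF g) : CRF (fun x => f x - g x) :=
  (hf.add hg.neg).congr fun x => by ring

lemma nat_le_two_pow' (m : ℕ) : (m : ℝ) ≤ 2 ^ m := by
  exact_mod_cast (Nat.lt_two_pow_self).le

lemma CRF.mul {f g : α → ℝ} (hf : CRF f) (hg : CRF g) : CRF (fun x => f x * g x) := by
  obtain ⟨A, hA, ha⟩ := hf
  obtain ⟨B, hB, hb⟩ := hg
  -- bounds
  set KA : α → ℕ := fun x => (A (x, 0)).1 + (A (x, 0)).2.1 + 1 with hKA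
  set KB : α → ℕ := fun x => (B (x, 0)).1 + (B (x, 0)).2.1 + 1 with hKB
  have hx0 : Computable fun x : α => (x, 0) := Computable.id.pair (ccst 0)
  have cKA : Computable KA := cadd (cadd (c1 (hA.comp hx0)) (c2 (hA.comp hx0))) (ccst 1)
  have cKB : Computable KB := cadd (cadd (c1 (hB.comp hx0)) (c2 (hB.comp hx0))) (ccst 1)
  have bA : ∀ x, |f x| ≤ KA x := by
    intro x
    have h1 := ha x 0
    have h2 := abs_rv_le (A (x, 0))
    have h3 := abs_sub_abs_le_abs_sub (f x) (rv (A (x, 0)))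
    simp only [hKA]; push_cast
    rw [pow_zero] at h1
    linarith
  have bB : ∀ x, |g x| ≤ KB x := by
    intro x
    have h1 := hb x 0
    have h2 := abs_rv_le (B (x, 0))
    have h3 := abs_sub_abs_le_abs_sub (g x) (rv (B (x, 0)))
    simp only [hKB]; push_cast
    rw [pow_zero] at h1
    linarith
  have cp : Computable fun p : α × ℕ => (p.1, p.2 + (KA p.1 + KB p.1 + 1)) :=
    Computable.fst.pair (cadd Computable.snd (cadd (cadd (cKA.comp Computable.fst)
      (cKB.comp Computable.fst)) (ccst 1)))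
  refine ⟨fun p => qmul (A (p.1, p.2 + (KA p.1 + KB p.1 + 1))) (B (p.1, p.2 + (KA p.1 + KB p.1 + 1))),
    cqmul (hA.comp cp) (hB.comp cp), ?_⟩
  intro x n
  simp only
  rw [rv_qmul]
  set P := n + (KA x + KB x + 1) with hP
  have h1 := ha x P
  have h2 := hb x P
  set a := rv (A (x, P))
  set b := rv (B (x, P))
  have hP1 : (1 / 2 : ℝ) ^ P ≤ 1 := pow_le_one₀ (by norm_num) (by norm_num)
  have hP0 : (0 : ℝ) < (1 / 2 : ℝ) ^ P := by positivity
  have hbb : |b| ≤ KB x + 1 := by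
    have h3 := abs_sub_abs_le_abs_sub b (g x)
    rw [abs_sub_comm] at h3
    have := bB x
    linarith
  have h5 : f x * g x - a * b = f x * (g x - b) + b * (f x - a) := by ring
  rw [h5]
  refine (abs_add_le _ _).trans ?_
  rw [abs_mul, abs_mul]
  have h6 : |f x| * |g x - b| ≤ KA x * (1 / 2) ^ P :=
    mul_le_mul (bA x) h2 (abs_nonneg _) (by positivity)
  have h7 : |b| * |f x - a| ≤ (KB x + 1) * (1 / 2) ^ P :=
    mul_le_mul hbb h1 (abs_nonneg _) (by positivity)
  have h8 : ((KA x + KB x + 1 : ℕ) : ℝ) * (1 / 2) ^ P ≤ (1 / 2) ^ n := by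
    rw [hP, pow_add]
    have h9 := nat_le_two_pow' (KA x + KB x + 1)
    have h10 : (1 / 2 : ℝ) ^ (KA x + KB x + 1) * 2 ^ (KA x + KB x + 1) = 1 := by
      rw [← mul_pow]; norm_num
    have h11 : (0 : ℝ) < (1 / 2) ^ n := by positivity
    have h12 : (0 : ℝ) < (1 / 2 : ℝ) ^ (KA x + KB x + 1) := by positivity
    calc ((KA x + KB x + 1 : ℕ) : ℝ) * ((1 / 2) ^ n * (1 / 2) ^ (KA x + KB x + 1))
        ≤ 2 ^ (KA x + KB x + 1) * ((1 / 2) ^ n * (1 / 2) ^ (KA x + KB x + 1)) :=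
          mul_le_mul_of_nonneg_right h9 (by positivity)
      _ = (1 / 2) ^ n * ((1 / 2 : ℝ) ^ (KA x + KB x + 1) * 2 ^ (KA x + KB x + 1)) := by ring
      _ = (1 / 2) ^ n := by rw [h10, mul_one]
  push_cast at h8
  linarith

lemma CRF.cond {c : α → Bool} (hc : Computable c) {f g : α → ℝ} (hf : CRF f) (hg : CRF g) :
    CRF (fun x => bif c x then f x else g x) := by
  obtain ⟨A, hA, ha⟩ := hf
  obtain ⟨B, hB, hb⟩ := hg
  refine ⟨fun p => bif c p.1 then A p else B p, Computable.cond (hc.comp Computable.fst) hA hB, ?_⟩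
  intro x n
  simp only
  cases c x
  · exact hb x n
  · exact ha x n

lemma CRF.ite {c : α → Prop} [DecidablePred c] (hc : Computable fun x => decide (c x))
    {f g : α → ℝ} (hf : CRF f) (hg : CRF g) : CRF (fun x => if c x then f x else g x) :=
  (CRF.cond hc hf hg).congr fun x => by
    by_cases h : c x <;> simp [h]

/-- iterated addition -/
def qsum (A : ℕ → Q3) : ℕ → Q3
  | 0 => (0, 0, 0)
  | n + 1 => qadd (qsum A n) (A n)

lemma rv_qsum (A : ℕ → Q3) (n : ℕ) : rv (qsum A n) = ∑ k ∈ Finset.range n, rv (A k) := by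
  induction n with
  | zero => simp [qsum, rv]
  | succ n ih => rw [qsum, rv_qadd, ih, Finset.sum_range_succ]

lemma qsum_eq_rec (A : ℕ → Q3) (n : ℕ) :
    (Nat.rec (0, 0, 0) (fun y IH => qadd IH (A y)) n : Q3) = qsum A n := by
  induction n with
  | zero => rfl
  | succ n ih => simp only [qsum]; rw [← ih]

lemma nat_mul_half_pow (m n : ℕ) : (m : ℝ) * (1 / 2) ^ (n + m) ≤ (1 / 2) ^ n := by
  rw [pow_add]
  have h9 := nat_le_two_pow' m
  have h10 : (1 / 2 : ℝ) ^ m * 2 ^ m = 1 := by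
    rw [← mul_pow]; norm_num
  calc (m : ℝ) * ((1 / 2) ^ n * (1 / 2) ^ m)
      ≤ 2 ^ m * ((1 / 2) ^ n * (1 / 2) ^ m) :=
        mul_le_mul_of_nonneg_right h9 (by positivity)
    _ = (1 / 2) ^ n * ((1 / 2 : ℝ) ^ m * 2 ^ m) := by ring
    _ = (1 / 2) ^ n := by rw [h10, mul_one]

lemma CRF.sum {f : α × ℕ → ℝ} (hf : CRF f) {n : α → ℕ} (hn : Computable n) :
    CRF (fun x => ∑ k ∈ Finset.range (n x), f (x, k)) := by
  obtain ⟨A, hA, ha⟩ := hf
  have key : Computable fun p : α × ℕ => qsum (fun k => A ((p.1, k), p.2 + n p.1)) (n p.1) := by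
    have h1 : Computable₂ fun (p : α × ℕ) (s : ℕ × Q3) =>
        qadd s.2 (A ((p.1, s.1), p.2 + n p.1)) := by
      refine cqadd (Computable.snd.comp Computable.snd) (hA.comp ?_)
      refine ((Computable.fst.comp Computable.fst).pair (Computable.fst.comp Computable.snd)).pair ?_
      exact cadd (Computable.snd.comp Computable.fst) (hn.comp (Computable.fst.comp Computable.fst))
    have h2 := Computable.nat_rec (f := fun p : α × ℕ => n p.1)
      (g := fun _ : α × ℕ => ((0, 0, 0) : Q3)) (hn.comp Computable.fst) (Computable.const _) h1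
    exact h2.of_eq fun p => qsum_eq_rec (fun k => A ((p.1, k), p.2 + n p.1)) (n p.1)
  refine ⟨_, key, fun x N => ?_⟩
  simp only
  rw [rv_qsum, ← Finset.sum_sub_distrib]
  refine (Finset.abs_sum_le_sum_abs _ _).trans ?_
  refine (Finset.sum_le_sum fun k _ => ha (x, k) (N + n x)).trans ?_
  rw [Finset.sum_const, Finset.card_range, nsmul_eq_mul]
  exact nat_mul_half_pow _ _

lemma CRF.lim {F : α × ℕ → ℝ} (hF : CRF F) {f : α → ℝ} (h : ∀ x n, |f x - F (x, n)| ≤ (1 / 2) ^ n) :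
    CRF f := by
  obtain ⟨A, hA, ha⟩ := hF
  have h1 : Computable fun p : α × ℕ => ((p.1, p.2 + 1), p.2 + 1) :=
    (Computable.fst.pair (cadd Computable.snd (ccst 1))).pair (cadd Computable.snd (ccst 1))
  refine ⟨fun p => A ((p.1, p.2 + 1), p.2 + 1), hA.comp h1, fun x n => ?_⟩
  simp only
  have h2 := ha (x, n + 1) (n + 1)
  have h3 := h x (n + 1)
  have h4 : (1 / 2 : ℝ) ^ n = (1 / 2) ^ (n + 1) + (1 / 2) ^ (n + 1) := by rw [pow_succ]; ring
  have h5 := abs_sub_le (f x) (F (x, n + 1)) (rv (A ((x, n + 1), n + 1)))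
  linarith

lemma pow_sub_pow_le {a b : ℝ} (h0 : 0 ≤ b) (h1 : b ≤ a) (h2 : a ≤ 1) (N : ℕ) :
    a ^ N - b ^ N ≤ N * (a - b) := by
  induction N with
  | zero => simp
  | succ N ih =>
    rw [pow_succ, pow_succ]
    push_cast
    have h3 : a ^ N * a - b ^ N * b = (a ^ N - b ^ N) * a + b ^ N * (a - b) := by ring
    have h4 : b ^ N ≤ 1 := pow_le_one₀ h0 (h1.trans h2)
    have h5 : 0 ≤ a ^ N - b ^ N := sub_nonneg.mpr (pow_le_pow_left₀ h0 h1 N)
    have h6 : (a ^ N - b ^ N) * a ≤ (a ^ N - b ^ N) * 1 := mul_le_mul_of_nonneg_left h2 h5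
    have h7 : b ^ N * (a - b) ≤ 1 * (a - b) := mul_le_mul_of_nonneg_right h4 (sub_nonneg.mpr h1)
    linarith

/-- approximation of the exponential -/
lemma exp_approx (p q n : ℕ) :
    |Real.exp (-((p : ℝ) / (q + 1))) - rv ((((p + 1) * (p + 1) * 2 ^ n) * (q + 1) - p) ^
      ((p + 1) * (p + 1) * 2 ^ n), 0, (((p + 1) * (p + 1) * 2 ^ n) * (q + 1)) ^
      ((p + 1) * (p + 1) * 2 ^ n) - 1)| ≤ (1 / 2) ^ n := by
  set N := (p + 1) * (p + 1) * 2 ^ n with hN
  have hNpos : 0 < N := by positivity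
  have hNp : p ≤ N := by
    have h1 : 1 ≤ 2 ^ n := Nat.one_le_two_pow
    calc p ≤ (p + 1) * (p + 1) * 1 := by nlinarith
      _ ≤ N := by rw [hN]; exact Nat.mul_le_mul_left _ h1
  have hNq : p ≤ N * (q + 1) := hNp.trans (Nat.le_mul_of_pos_right N (by omega))
  have hNr : (0 : ℝ) < N := by exact_mod_cast hNpos
  have hq : (0 : ℝ) < (q : ℝ) + 1 := by positivity
  set s : ℝ := (p : ℝ) / (q + 1) with hs
  have hs0 : 0 ≤ s := by positivity
  have hsp : s ≤ p := by
    rw [hs, div_le_iff₀ hq]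
    nlinarith [Nat.cast_nonneg (α := ℝ) p, Nat.cast_nonneg (α := ℝ) q]
  have hsN : s ≤ N := hsp.trans (by exact_mod_cast hNp)
  have hval : rv ((N * (q + 1) - p) ^ N, 0, (N * (q + 1)) ^ N - 1) = (1 - s / N) ^ N := by
    unfold rv
    simp only
    rw [cast_sub_one (by positivity)]
    rw [Nat.cast_pow, Nat.cast_sub hNq, Nat.cast_pow, Nat.cast_zero, sub_zero, ← div_pow]
    congr 1
    push_cast
    rw [hs]
    field_simp
  rw [hval]
  set x : ℝ := s / N with hx
  have hx0 : 0 ≤ x := by positivity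
  have hx1 : x ≤ 1 := by rw [hx, div_le_one hNr]; exact hsN
  have hexp : Real.exp (-s) = Real.exp (-x) ^ N := by
    rw [← Real.exp_nat_mul]
    congr 1
    rw [hx]; field_simp
  rw [hexp]
  have ha1 : 1 - x ≤ Real.exp (-x) := Real.one_sub_le_exp_neg x
  have ha2 : Real.exp (-x) ≤ 1 := Real.exp_le_one_iff.mpr (by linarith)
  have hb0 : 0 ≤ 1 - x := by linarith
  have h1 : 0 ≤ Real.exp (-x) ^ N - (1 - x) ^ N := sub_nonneg.mpr (pow_le_pow_left₀ hb0 ha1 N)
  rw [abs_of_nonneg h1]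
  refine (pow_sub_pow_le hb0 ha1 ha2 N).trans ?_
  have h2 : Real.exp (-x) - (1 - x) ≤ x ^ 2 := by
    have h := Real.abs_exp_sub_one_sub_id_le (x := -x) (by rw [abs_neg, abs_of_nonneg hx0]; exact hx1)
    have h' := le_trans (le_abs_self _) h
    have : (-x) ^ 2 = x ^ 2 := by ring
    rw [this] at h'
    linarith
  have h3 : (N : ℝ) * (Real.exp (-x) - (1 - x)) ≤ N * x ^ 2 := mul_le_mul_of_nonneg_left h2 hNr.le
  refine h3.trans ?_
  have h4 : (N : ℝ) * x ^ 2 = s ^ 2 / N := by rw [hx]; field_simp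
  rw [h4, div_le_iff₀ hNr]
  have h5 : s ^ 2 ≤ ((p : ℝ) + 1) * (p + 1) := by nlinarith
  have h6 : (1 / 2 : ℝ) ^ n * N = ((p : ℝ) + 1) * (p + 1) := by
    rw [hN]; push_cast
    have h10 : (1 / 2 : ℝ) ^ n * 2 ^ n = 1 := by rw [← mul_pow]; norm_num
    calc (1 / 2 : ℝ) ^ n * (((p : ℝ) + 1) * (p + 1) * 2 ^ n)
        = ((p : ℝ) + 1) * (p + 1) * ((1 / 2 : ℝ) ^ n * 2 ^ n) := by ring
      _ = _ := by rw [h10, mul_one]
  rw [h6]
  exact h5

lemma CRF.expneg {p q : α → ℕ} (hp : Computable p) (hq : Computable q) :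
    CRF (fun x => Real.exp (-((p x : ℝ) / (q x + 1)))) := by
  have hp1 : Computable fun z : α × ℕ => p z.1 := hp.comp Computable.fst
  have hq1 : Computable fun z : α × ℕ => q z.1 := hq.comp Computable.fst
  have hN : Computable fun z : α × ℕ => (p z.1 + 1) * (p z.1 + 1) * 2 ^ z.2 :=
    cmul (cmul (cadd hp1 (ccst 1)) (cadd hp1 (ccst 1))) (cpow (ccst 2) Computable.snd)
  refine ⟨fun z => ((((p z.1 + 1) * (p z.1 + 1) * 2 ^ z.2) * (q z.1 + 1) - p z.1) ^
      ((p z.1 + 1) * (p z.1 + 1) * 2 ^ z.2), 0, (((p z.1 + 1) * (p z.1 + 1) * 2 ^ z.2) * (q z.1 + 1)) ^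
      ((p z.1 + 1) * (p z.1 + 1) * 2 ^ z.2) - 1), ?_, fun x n => exp_approx (p x) (q x) n⟩
  exact (cpow (csub (cmul hN (cadd hq1 (ccst 1))) hp1) hN).pair
    ((ccst 0).pair (csub (cpow (cmul hN (cadd hq1 (ccst 1))) hN) (ccst 1)))

end CRF

end Vale.Agent.P113
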