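import Mathlib

/-! Definitions for halting detection by forced Navier-Stokes flows on the flat torus.

Functions on the torus `𝕋³ = (ℝ/ℤ)³` are represented by `ℤ³`-periodic functions on `ℝ³`, points of
the torus by points of `ℝ³`, and open subsets of the torus by `ℤ³`-periodic open subsets of `ℝ³`. -/

namespace Vale.Agent.P113

open MeasureTheory Set
open scoped ContDiff

/-- `ℝ³`, the universal cover of the torus. -/
abbrev R3 := Fin 3 → ℝ

/-- translation of a point by an integer vector -/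
def shift (x : R3) (k : Fin 3 → ℤ) : R3 := fun i => x i + k i

/-! ### Turing machines -/

/-- A transition rule `(q, a, q', a', d)`: in state `q` reading `a`, go to state `q'`, write `a'`,
and move by `d - 1`, that is: `d = 0` is left, `d = 1` is stay, `d = 2` is right. -/
abbrev Rule := ℕ × ℕ × ℕ × ℕ × Fin 3

/-- A machine: a finite list of rules and a finite list of halting states. States and tape symbols
are natural numbers (only finitely many occur in the rules); the blank is `0`, the initial state is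
`0`. The first rule that matches is used, so the machine is deterministic; if no rule matches, the
configuration does not change. -/
abbrev Machine := List Rule × List ℕ

/-- A configuration: state, head position, two-sided tape. -/
structure Cfg where
  q : ℕ
  h : ℤ
  tape : ℤ → ℕ

/-- One step of the machine. -/
def step (M : Machine) (c : Cfg) : Cfg :=
  match M.1.find? (fun r => decide (r.1 = c.q ∧ r.2.1 = c.tape c.h)) with
  | none => c
  | some r => ⟨r.2.2.1, c.h + ((r.2.2.2.2 : ℕ) : ℤ) - 1, Function.update c.tape c.h r.2.2.2.1⟩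

/-- Initial configuration: the input on an otherwise blank tape, head on its first cell. -/
def initCfg (w : List ℕ) : Cfg :=
  ⟨0, 0, fun i => if 0 ≤ i then w.getD i.toNat 0 else 0⟩

/-- `M` halts on `w`: a halting state is reached after finitely many steps (possibly none). -/
def Halts (M : Machine) (w : List ℕ) : Prop :=
  ∃ n : ℕ, ((step M)^[n] (initCfg w)).q ∈ M.2

/-! ### Effectivity -/

/-- The rational number `(a - b) / (d + 1)` coded by the triple `(a, b, d)` of natural numbers. -/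
def ratVal (r : ℕ × ℕ × ℕ) : ℚ := ((r.1 : ℚ) - r.2.1) / (r.2.2 + 1)

/-- Computable real numbers. -/
def IsComputableReal (ν : ℝ) : Prop :=
  ∃ A : ℕ → ℕ × ℕ × ℕ, Computable A ∧ ∀ n : ℕ, |ν - ratVal (A n)| ≤ 1 / ((n : ℝ) + 1)

/-- First order partial derivative of a function of `(t, x)`: in time (`none`) or in the `i`-th
space variable (`some i`). -/
noncomputable def dirDeriv : Option (Fin 3) → (ℝ → R3 → ℝ) → ℝ → R3 → ℝ
  | none, F => fun t x => deriv (fun s => F s x) t
  | some i, F => fun t x => deriv (fun s => F t (Function.update x i s)) (x i)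

/-- Mixed partial derivative along a list of directions. -/
noncomputable def mixedDeriv (l : List (Option (Fin 3))) (F : ℝ → R3 → ℝ) : ℝ → R3 → ℝ :=
  l.foldr dirDeriv F

/-- A query: the component, the list of directions of a mixed derivative, the codes of the rational
time and of the three rational space coordinates, and the accuracy parameter. -/
abbrev Query := Fin 3 × List (Option (Fin 3)) × ((ℕ × ℕ × ℕ) × (ℕ × ℕ × ℕ) × (ℕ × ℕ × ℕ) × (ℕ × ℕ × ℕ)) × ℕ

/-- The program `c` computes the mixed derivatives of `f` at rational points: on every query it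
halts and returns (the code of) a rational number within `1 / (n + 1)` of the derivative. -/
def Computes (c : Nat.Partrec.Code) (f : ℝ → R3 → R3) : Prop :=
  ∀ Q : Query, ∃ r : ℕ × ℕ × ℕ, Encodable.encode r ∈ c.eval (Encodable.encode Q) ∧
    |mixedDeriv Q.2.1 (fun t x => f t x Q.1) (ratVal Q.2.2.1.1 : ℚ)
        ![(ratVal Q.2.2.1.2.1 : ℝ), (ratVal Q.2.2.1.2.2.1 : ℝ), (ratVal Q.2.2.1.2.2.2 : ℝ)]
      - ratVal r| ≤ 1 / ((Q.2.2.2 : ℝ) + 1)

/-- Smooth forces on `ℝ × 𝕋³` (we only use their restriction to `t ≥ 0`). -/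
def IsSmoothForce (f : ℝ → R3 → R3) : Prop :=
  ContDiff ℝ ∞ (fun q : ℝ × R3 => f q.1 q.2) ∧ ∀ t x k, f t (shift x k) = f t x

/-! ### Navier-Stokes -/

/-- `∂_j g_i` for a vector field `g` on `ℝ³`. -/
noncomputable def pd (j : Fin 3) (g : R3 → R3) (x : R3) (i : Fin 3) : ℝ :=
  fderiv ℝ g x (Pi.single j 1) i

/-- `∂_j ∂_j g_i` for a vector field `g` on `ℝ³`. -/
noncomputable def pdd (j : Fin 3) (g : R3 → R3) (x : R3) (i : Fin 3) : ℝ :=
  fderiv ℝ (fderiv ℝ g) x (Pi.single j 1) (Pi.single j 1) i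

/-- Classical solutions on `[0,T]` of the incompressible Navier-Stokes equations on `𝕋³` with
viscosity `ν`, force `f` and zero initial velocity. -/
structure IsClassicalSolution (ν : ℝ) (f : ℝ → R3 → R3) (T : ℝ) (u : ℝ → R3 → R3)
    (p : ℝ → R3 → ℝ) : Prop where
  /-- the velocity is a function on the torus -/
  periodic_u : ∀ t ∈ Icc 0 T, ∀ x k, u t (shift x k) = u t x
  /-- the pressure is a function on the torus -/
  periodic_p : ∀ t ∈ Icc 0 T, ∀ x k, p t (shift x k) = p t x
  /-- `∂_t u` exists (one-sided at the end points) -/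
  diff_t : ∀ x, ∀ t ∈ Icc 0 T, DifferentiableWithinAt ℝ (fun s => u s x) (Icc 0 T) t
  /-- the space derivatives of `u` up to order two exist -/
  smooth_u : ∀ t ∈ Icc 0 T, ContDiff ℝ 2 (u t)
  /-- `∇ p` exists -/
  smooth_p : ∀ t ∈ Icc 0 T, ContDiff ℝ 1 (p t)
  /-- joint continuity of `u`, `∂_t u`, `∇ u`, `∇² u`, `p`, `∇ p` on `[0,T] × 𝕋³` -/
  cont_u : ContinuousOn (fun q : ℝ × R3 => u q.1 q.2) (Icc 0 T ×ˢ univ)
  cont_ut : ContinuousOn (fun q : ℝ × R3 => derivWithin (fun s => u s q.2) (Icc 0 T) q.1)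
    (Icc 0 T ×ˢ univ)
  cont_du : ContinuousOn (fun q : ℝ × R3 => fderiv ℝ (u q.1) q.2) (Icc 0 T ×ˢ univ)
  cont_ddu : ContinuousOn (fun q : ℝ × R3 => fderiv ℝ (fderiv ℝ (u q.1)) q.2) (Icc 0 T ×ˢ univ)
  cont_p : ContinuousOn (fun q : ℝ × R3 => p q.1 q.2) (Icc 0 T ×ˢ univ)
  cont_dp : ContinuousOn (fun q : ℝ × R3 => fderiv ℝ (p q.1) q.2) (Icc 0 T ×ˢ univ)
  /-- `∂_t u + (u·∇)u = -∇p + νΔu + f` -/
  momentum : ∀ t ∈ Icc 0 T, ∀ x i,
    derivWithin (fun s => u s x) (Icc 0 T) t i + ∑ j, u t x j * pd j (u t) x i =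
      - fderiv ℝ (p t) x (Pi.single i 1) + ν * ∑ j, pdd j (u t) x i + f t x i
  /-- `div u = 0` -/
  div_free : ∀ t ∈ Icc 0 T, ∀ x, ∑ j, pd j (u t) x j = 0
  /-- `u(0,·) = 0` -/
  init : ∀ x, u 0 x = 0
  /-- the pressure has spatial mean zero -/
  mean_zero : ∀ t ∈ Icc 0 T, ∫ x in Icc (0 : R3) 1, p t x = 0

/-- `(u,p)` is a global smooth solution which is unique among classical solutions on each
`[0,T]`. -/
def IsUniqueGlobalSmoothSolution (ν : ℝ) (f : ℝ → R3 → R3) (u : ℝ → R3 → R3) (p : ℝ → R3 → ℝ) :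
    Prop :=
  ContDiff ℝ ∞ (fun q : ℝ × R3 => u q.1 q.2) ∧ ContDiff ℝ ∞ (fun q : ℝ × R3 => p q.1 q.2) ∧
  ∀ T > 0, IsClassicalSolution ν f T u p ∧
    ∀ v q, IsClassicalSolution ν f T v q → ∀ t ∈ Icc 0 T, ∀ x, v t x = u t x ∧ q t x = p t x

/-- `X` is the trajectory of the velocity field `u` starting at `a`. -/
def IsTrajectory (u : ℝ → R3 → R3) (a : R3) (X : ℝ → R3) : Prop :=
  X 0 = a ∧ ∀ t, 0 ≤ t → HasDerivWithinAt X (u t (X t)) (Ici 0) t

/-- Open subsets of the torus. -/
def IsOpenTorusSet (O : Set R3) : Prop := IsOpen O ∧ ∀ x k, shift x k ∈ O ↔ x ∈ O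

/-- A force compiler: an algorithm `comp` that on every pair `(M, w)` halts and outputs a program
for the effective force `f M w`; from the time `T₀` on, which does not depend on `(M, w)`, the force
is periodic in time and depends on `M` only. -/
def IsForceCompiler (comp : Machine × List ℕ → Nat.Partrec.Code)
    (f : Machine → List ℕ → ℝ → R3 → R3) : Prop :=
  Computable comp ∧ (∀ M w, IsSmoothForce (f M w) ∧ Computes (comp (M, w)) (f M w)) ∧
  ∃ T₀ : ℝ, 0 ≤ T₀ ∧
    (∀ M w w' t x, T₀ ≤ t → f M w t x = f M w' t x) ∧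
    (∀ M, ∃ P > 0, ∀ w t x, T₀ ≤ t → f M w (t + P) x = f M w t x)

end Vale.Agent.P113
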