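import Vale.Agent.P113.Defs

/-! The divergence of a periodic field has mean zero; the energy identity on a time slice. -/

namespace Vale.Agent.P113

open Set Filter Topology MeasureTheory
open scoped ContDiff

/-- scalar partial derivative -/
noncomputable def D (j : Fin 3) (g : R3 → ℝ) (x : R3) : ℝ := fderiv ℝ g x (Pi.single j 1)

lemma insertNth_shift (i : Fin 3) (x : Fin 2 → ℝ) :
    (i.insertNth (1 : ℝ) x : R3) = shift (i.insertNth (0 : ℝ) x : R3) (Pi.single i 1) := by
  funext k
  unfold shift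
  refine Fin.succAboveCases i ?_ ?_ k
  · simp
  · intro l
    simp [Fin.succAbove_ne]

lemma integral_div_eq_zero (g : Fin 3 → R3 → ℝ) (hg : ∀ j, ContDiff ℝ 1 (g j))
    (hper : ∀ j x k, g j (shift x k) = g j x) :
    ∫ x in Icc (0 : R3) 1, ∑ j, D j (g j) x = 0 := by
  have h := integral_divergence_of_hasFDerivAt_off_countable' (E := ℝ) (n := 2) (0 : R3) 1
    (by intro i; simp) g (fun i x => fderiv ℝ (g i) x) ∅ countable_empty
    (fun i => (hg i).continuous.continuousOn)
    (fun x _ i => ((hg i).differentiable (by norm_num) x).hasFDerivAt) ?_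
  · unfold D
    refine h.trans ?_
    apply Finset.sum_eq_zero
    intro i _
    rw [sub_eq_zero]
    congr 1
    funext x
    have := insertNth_shift i x
    simp only [Pi.one_apply, Pi.zero_apply]
    rw [this, hper]
  · refine ContinuousOn.integrableOn_compact isCompact_Icc (Continuous.continuousOn ?_)
    refine continuous_finsetSum _ fun i _ => ?_
    exact ((hg i).continuous_fderiv (by norm_num)).clm_apply continuous_const


lemma D_mul (j : Fin 3) {f g : R3 → ℝ} {x : R3} (hf : DifferentiableAt ℝ f x)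
    (hg : DifferentiableAt ℝ g x) :
    D j (fun y => f y * g y) x = f x * D j g x + g x * D j f x := by
  unfold D
  rw [fderiv_fun_mul hf hg]
  simp

lemma D_add (j : Fin 3) {f g : R3 → ℝ} {x : R3} (hf : DifferentiableAt ℝ f x)
    (hg : DifferentiableAt ℝ g x) :
    D j (fun y => f y + g y) x = D j f x + D j g x := by
  unfold D
  rw [fderiv_fun_add hf hg]
  simp

lemma D_const_mul (j : Fin 3) (c : ℝ) {g : R3 → ℝ} {x : R3} (hg : DifferentiableAt ℝ g x) :
    D j (fun y => c * g y) x = c * D j g x := by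
  unfold D
  rw [fderiv_const_mul hg]
  simp

lemma D_comp (j i : Fin 3) {W : R3 → R3} (hW : Differentiable ℝ W) (x : R3) :
    D j (fun y => W y i) x = pd j W x i := by
  unfold D pd
  have h : HasFDerivAt (fun y => W y i)
      ((ContinuousLinearMap.proj (R := ℝ) (φ := fun _ : Fin 3 => ℝ) i).comp (fderiv ℝ W x)) x :=
    (ContinuousLinearMap.proj (R := ℝ) (φ := fun _ : Fin 3 => ℝ) i).hasFDerivAt.comp x
      (hW x).hasFDerivAt
  rw [h.fderiv]
  rfl

lemma D_pd (j i : Fin 3) {W : R3 → R3} (hW : ContDiff ℝ 2 W) (x : R3) :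
    D j (fun y => pd j W y i) x = pdd j W x i := by
  unfold D pd pdd
  have hd : Differentiable ℝ (fderiv ℝ W) :=
    (hW.fderiv_right (m := 1) (by norm_num)).differentiable (by norm_num)
  have h1 : HasFDerivAt (fun y => fderiv ℝ W y (Pi.single j 1))
      ((ContinuousLinearMap.apply ℝ R3 (Pi.single j 1)).comp (fderiv ℝ (fderiv ℝ W) x)) x := by
    have ha : HasFDerivAt (fun A : R3 →L[ℝ] R3 => A (Pi.single j 1))
      (ContinuousLinearMap.apply ℝ R3 (Pi.single j 1)) (fderiv ℝ W x) :=
      (ContinuousLinearMap.apply ℝ R3 (Pi.single j 1)).hasFDerivAt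
    exact ha.comp x (hd x).hasFDerivAt
  have h : HasFDerivAt (fun y => fderiv ℝ W y (Pi.single j 1) i)
      ((ContinuousLinearMap.proj (R := ℝ) (φ := fun _ : Fin 3 => ℝ) i).comp
        ((ContinuousLinearMap.apply ℝ R3 (Pi.single j 1)).comp (fderiv ℝ (fderiv ℝ W) x))) x :=
    (ContinuousLinearMap.proj (R := ℝ) (φ := fun _ : Fin 3 => ℝ) i).hasFDerivAt.comp x h1
  rw [h.fderiv]
  rfl

lemma contDiff_comp (i : Fin 3) {W : R3 → R3} {n : WithTop ℕ∞} (hW : ContDiff ℝ n W) :
    ContDiff ℝ n (fun y => W y i) :=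
  (contDiff_pi.mp hW) i

lemma contDiff_pd (j i : Fin 3) {W : R3 → R3} (hW : ContDiff ℝ 2 W) :
    ContDiff ℝ 1 (fun y => pd j W y i) := by
  have hd : ContDiff ℝ 1 (fderiv ℝ W) := hW.fderiv_right (m := 1) (by norm_num)
  have h1 : ContDiff ℝ 1 (fun y => fderiv ℝ W y (Pi.single j 1)) := hd.clm_apply contDiff_const
  exact contDiff_comp i h1

lemma fderiv_periodic {E : Type*} [NormedAddCommGroup E] [NormedSpace ℝ E] {W : R3 → E}
    (hW : ∀ x k, W (shift x k) = W x) (x : R3) (k : Fin 3 → ℤ) :
    fderiv ℝ W (shift x k) = fderiv ℝ W x := by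
  have h : (fun y : R3 => W (y + fun i => (k i : ℝ))) = W := by
    funext y
    exact hW y k
  have h2 : fderiv ℝ (fun y : R3 => W (y + fun i => (k i : ℝ))) x =
      fderiv ℝ W (x + fun i => (k i : ℝ)) := fderiv_comp_add_right _
  rw [h] at h2
  rw [h2]
  rfl

lemma pd_periodic (j i : Fin 3) {W : R3 → R3} (hW : ∀ x k, W (shift x k) = W x) (x : R3)
    (k : Fin 3 → ℤ) : pd j W (shift x k) i = pd j W x i := by
  unfold pd
  rw [fderiv_periodic hW]

/-- the flux -/
noncomputable def FF (ν : ℝ) (V W : R3 → R3) (P : R3 → ℝ) (j : Fin 3) (x : R3) : ℝ :=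
  (-1) * (V x j * (W x 0 * W x 0 + W x 1 * W x 1 + W x 2 * W x 2)) + (-2) * (P x * W x j)
    + (2 * ν) * (W x 0 * pd j W x 0 + W x 1 * pd j W x 1 + W x 2 * pd j W x 2)

section slice

variable {ν : ℝ} {V W : R3 → R3} {P : R3 → ℝ} (hV : ContDiff ℝ 1 V) (hW : ContDiff ℝ 2 W)
  (hP : ContDiff ℝ 1 P)

include hV hW hP

lemma contDiff_FF (j : Fin 3) : ContDiff ℝ 1 (FF ν V W P j) := by
  unfold FF
  have hW1 : ContDiff ℝ 1 W := hW.of_le (by norm_num)
  have h0 := contDiff_comp 0 hW1
  have h1 := contDiff_comp 1 hW1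
  have h2 := contDiff_comp 2 hW1
  have hj := contDiff_comp j hW1
  have hVj := contDiff_comp j hV
  have p0 := contDiff_pd j 0 hW
  have p1 := contDiff_pd j 1 hW
  have p2 := contDiff_pd j 2 hW
  exact ((contDiff_const.mul (hVj.mul (((h0.mul h0).add (h1.mul h1)).add (h2.mul h2)))).add
    (contDiff_const.mul (hP.mul hj))).add
    (contDiff_const.mul (((h0.mul p0).add (h1.mul p1)).add (h2.mul p2)))

lemma D_FF (j : Fin 3) (x : R3) : D j (FF ν V W P j) x =
    (-1) * (V x j * (2 * (W x 0 * pd j W x 0) + 2 * (W x 1 * pd j W x 1) + 2 * (W x 2 * pd j W x 2))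
      + (W x 0 * W x 0 + W x 1 * W x 1 + W x 2 * W x 2) * pd j V x j)
    + (-2) * (P x * pd j W x j + W x j * D j P x)
    + (2 * ν) * ((W x 0 * pdd j W x 0 + pd j W x 0 * pd j W x 0)
      + (W x 1 * pdd j W x 1 + pd j W x 1 * pd j W x 1)
      + (W x 2 * pdd j W x 2 + pd j W x 2 * pd j W x 2)) := by
  have hW1 : ContDiff ℝ 1 W := hW.of_le (by norm_num)
  have dW : Differentiable ℝ W := hW1.differentiable (by norm_num)
  have dV : Differentiable ℝ V := hV.differentiable (by norm_num)
  have d0 : DifferentiableAt ℝ (fun y => W y 0) x := (contDiff_comp 0 hW1).differentiable (by norm_num) x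
  have d1 : DifferentiableAt ℝ (fun y => W y 1) x := (contDiff_comp 1 hW1).differentiable (by norm_num) x
  have d2 : DifferentiableAt ℝ (fun y => W y 2) x := (contDiff_comp 2 hW1).differentiable (by norm_num) x
  have dj : DifferentiableAt ℝ (fun y => W y j) x := (contDiff_comp j hW1).differentiable (by norm_num) x
  have dVj : DifferentiableAt ℝ (fun y => V y j) x := (contDiff_comp j hV).differentiable (by norm_num) x
  have q0 : DifferentiableAt ℝ (fun y => pd j W y 0) x := (contDiff_pd j 0 hW).differentiable (by norm_num) x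
  have q1 : DifferentiableAt ℝ (fun y => pd j W y 1) x := (contDiff_pd j 1 hW).differentiable (by norm_num) x
  have q2 : DifferentiableAt ℝ (fun y => pd j W y 2) x := (contDiff_pd j 2 hW).differentiable (by norm_num) x
  have dP : DifferentiableAt ℝ P x := hP.differentiable (by norm_num) x
  have s0 : DifferentiableAt ℝ (fun y => W y 0 * W y 0) x := d0.mul d0
  have s1 : DifferentiableAt ℝ (fun y => W y 1 * W y 1) x := d1.mul d1
  have s2 : DifferentiableAt ℝ (fun y => W y 2 * W y 2) x := d2.mul d2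
  have s01 : DifferentiableAt ℝ (fun y => W y 0 * W y 0 + W y 1 * W y 1) x := s0.add s1
  have s : DifferentiableAt ℝ (fun y => W y 0 * W y 0 + W y 1 * W y 1 + W y 2 * W y 2) x := s01.add s2
  have r0 : DifferentiableAt ℝ (fun y => W y 0 * pd j W y 0) x := d0.mul q0
  have r1 : DifferentiableAt ℝ (fun y => W y 1 * pd j W y 1) x := d1.mul q1
  have r2 : DifferentiableAt ℝ (fun y => W y 2 * pd j W y 2) x := d2.mul q2
  have r01 : DifferentiableAt ℝ (fun y => W y 0 * pd j W y 0 + W y 1 * pd j W y 1) x := r0.add r1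
  have r : DifferentiableAt ℝ (fun y => W y 0 * pd j W y 0 + W y 1 * pd j W y 1 + W y 2 * pd j W y 2) x :=
    r01.add r2
  have A : DifferentiableAt ℝ (fun y => V y j * (W y 0 * W y 0 + W y 1 * W y 1 + W y 2 * W y 2)) x :=
    dVj.mul s
  have B : DifferentiableAt ℝ (fun y => P y * W y j) x := dP.mul dj
  have A' : DifferentiableAt ℝ (fun y => (-1) * (V y j * (W y 0 * W y 0 + W y 1 * W y 1 + W y 2 * W y 2))) x :=
    A.const_mul _
  have B' : DifferentiableAt ℝ (fun y => (-2) * (P y * W y j)) x := B.const_mul _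
  have R' : DifferentiableAt ℝ (fun y => (2 * ν) * (W y 0 * pd j W y 0 + W y 1 * pd j W y 1 + W y 2 * pd j W y 2)) x :=
    r.const_mul _
  have AB : DifferentiableAt ℝ (fun y => (-1) * (V y j * (W y 0 * W y 0 + W y 1 * W y 1 + W y 2 * W y 2))
    + (-2) * (P y * W y j)) x := A'.add B'
  unfold FF
  rw [D_add j AB R', D_add j A' B', D_const_mul j _ A, D_const_mul j _ B, D_const_mul j _ r,
    D_mul j dVj s, D_mul j dP dj, D_add j s01 s2, D_add j s0 s1, D_mul j d0 d0, D_mul j d1 d1,
    D_mul j d2 d2, D_add j r01 r2, D_add j r0 r1, D_mul j d0 q0, D_mul j d1 q1, D_mul j d2 q2,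
    D_pd j 0 hW, D_pd j 1 hW, D_pd j 2 hW, D_comp j 0 dW, D_comp j 1 dW, D_comp j 2 dW,
    D_comp j j dW, D_comp j j dV]
  ring

/-- the energy inequality on a time slice -/
lemma slice_le (hν : 0 ≤ ν) (hV' : ∀ x k, V (shift x k) = V x) (hW' : ∀ x k, W (shift x k) = W x)
    (hP' : ∀ x k, P (shift x k) = P x) (divV : ∀ x, ∑ j, pd j V x j = 0)
    (divW : ∀ x, ∑ j, pd j W x j = 0) :
    ∫ x in Icc (0 : R3) 1, ∑ i, 2 * W x i * (-(∑ j, V x j * pd j W x i) - D i P x
      + ν * ∑ j, pdd j W x i) ≤ 0 := by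
  have h0 := integral_div_eq_zero (FF ν V W P) (contDiff_FF hV hW hP) (by
    intro j x k
    unfold FF
    rw [hV', hW', hP', pd_periodic j 0 hW', pd_periodic j 1 hW', pd_periodic j 2 hW'])
  rw [← h0]
  have hW1 : ContDiff ℝ 1 W := hW.of_le (by norm_num)
  have cpd : ∀ j i, Continuous (fun y => pd j W y i) := fun j i => (contDiff_pd j i hW).continuous
  have cW : ∀ i, Continuous (fun y => W y i) := fun i => (contDiff_comp i hW1).continuous
  have cV : ∀ i, Continuous (fun y => V y i) := fun i => (contDiff_comp i hV).continuous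
  have cP : ∀ i, Continuous (fun y => D i P y) := fun i =>
    (hP.continuous_fderiv (by norm_num)).clm_apply continuous_const
  have cpdd : ∀ j i, Continuous (fun y => pdd j W y i) := fun j i => by
    have : (fun y => pdd j W y i) = fun y => D j (fun y => pd j W y i) y :=
      funext fun y => (D_pd j i hW y).symm
    rw [this]
    exact ((contDiff_pd j i hW).continuous_fderiv (by norm_num)).clm_apply continuous_const
  refine setIntegral_mono_on ?_ ?_ measurableSet_Icc ?_
  · refine ContinuousOn.integrableOn_compact isCompact_Icc (Continuous.continuousOn ?_)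
    simp only [Fin.sum_univ_three]
    fun_prop
  · refine ContinuousOn.integrableOn_compact isCompact_Icc (Continuous.continuousOn ?_)
    refine continuous_finsetSum _ fun i _ => ?_
    exact ((contDiff_FF hV hW hP i).continuous_fderiv (by norm_num)).clm_apply continuous_const
  · intro x _
    have e1 := divV x
    have e2 := divW x
    simp only [Fin.sum_univ_three, D_FF hV hW hP] at *
    have key : ∀ a : ℝ, 0 ≤ ν * (a * a) := fun a => mul_nonneg hν (mul_self_nonneg a)
    have k00 := key (pd 0 W x 0)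
    have k01 := key (pd 0 W x 1)
    have k02 := key (pd 0 W x 2)
    have k10 := key (pd 1 W x 0)
    have k11 := key (pd 1 W x 1)
    have k12 := key (pd 1 W x 2)
    have k20 := key (pd 2 W x 0)
    have k21 := key (pd 2 W x 1)
    have k22 := key (pd 2 W x 2)
    have m1 : (W x 0 * W x 0 + W x 1 * W x 1 + W x 2 * W x 2) *
      (pd 0 V x 0 + pd 1 V x 1 + pd 2 V x 2) = 0 := by rw [e1, mul_zero]
    have m2 : P x * (pd 0 W x 0 + pd 1 W x 1 + pd 2 W x 2) = 0 := by rw [e2, mul_zero]
    linarith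

end slice

end Vale.Agent.P113
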