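import Vale.Agent.P113.Bump

/-! Time profiles and the space profile `G`. -/

namespace Vale.Agent.P113

open Set Filter Topology MeasureTheory
open scoped ContDiff

/-- first time profile: supported in `[0,1]` -/
noncomputable def τ1 (j : ℕ) (t : ℝ) : ℝ := Bj j 0 1 t

/-- second time profile: periodic for `t ≥ 1`, zero for `t ≤ 1` -/
noncomputable def τ2 (j : ℕ) (t : ℝ) : ℝ := if t < 1 then 0 else Bj j 0 1 (Int.fract t)

lemma tower_τ1 : IsTower τ1 := isTower_Bj 0 1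

lemma tower_per : IsTower (fun j t => Bj j 0 1 (Int.fract t)) :=
  (isTower_Bj 0 1).periodize (fun _ _ h => Bj_of_le h) (fun _ _ h => Bj_of_ge h)

lemma tower_τ2 : IsTower τ2 := by
  intro j t
  rcases lt_trichotomy t 1 with h | h | h
  · have hev : τ2 j =ᶠ[𝓝 t] fun _ => 0 := by
      filter_upwards [Iio_mem_nhds h] with s hs
      exact if_pos hs
    have h2 : τ2 (j + 1) t = 0 := if_pos h
    rw [h2]
    exact (hasDerivAt_const t (0 : ℝ)).congr_of_eventuallyEq hev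
  · subst h
    have hev : τ2 j =ᶠ[𝓝 1] fun s => Bj j 0 1 (s - 1) := by
      filter_upwards [Ioo_mem_nhds (show (0 : ℝ) < 1 by norm_num) (show (1 : ℝ) < 2 by norm_num)]
        with s hs
      unfold τ2
      split_ifs with h
      · rw [Bj_of_le (by linarith)]
      · have hf : ⌊s⌋ = 1 := by
          rw [Int.floor_eq_iff]; push_cast; constructor <;> linarith [hs.2]
        rw [← Int.self_sub_floor, hf]; norm_num
    have h2 : τ2 (j + 1) 1 = Bj (j + 1) 0 1 (1 - 1) := by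
      unfold τ2; rw [if_neg (lt_irrefl _)]
      simp
    rw [h2]
    exact (((isTower_Bj 0 1) j (1 - 1)).comp_sub_const 1 1).congr_of_eventuallyEq hev
  · have hev : τ2 j =ᶠ[𝓝 t] fun s => Bj j 0 1 (Int.fract s) := by
      filter_upwards [Ioi_mem_nhds h] with s hs
      exact if_neg (not_lt.mpr (le_of_lt hs))
    have h2 : τ2 (j + 1) t = Bj (j + 1) 0 1 (Int.fract t) := if_neg (not_lt.mpr h.le)
    rw [h2]
    exact (tower_per j t).congr_of_eventuallyEq hev

lemma τ1_of_ge {j : ℕ} {t : ℝ} (h : 1 ≤ t) : τ1 j t = 0 := Bj_of_ge h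
lemma τ1_of_le {j : ℕ} {t : ℝ} (h : t ≤ 0) : τ1 j t = 0 := Bj_of_le h
lemma τ2_of_lt {j : ℕ} {t : ℝ} (h : t < 1) : τ2 j t = 0 := if_pos h
lemma τ2_of_le {j : ℕ} {t : ℝ} (h : t ≤ 1) : τ2 j t = 0 := by
  rcases h.lt_or_eq with h | h
  · exact τ2_of_lt h
  · subst h
    unfold τ2
    rw [if_neg (lt_irrefl _)]
    simp only [Int.fract_one]
    exact Bj_of_le le_rfl

lemma τ1_mul_τ2 (t : ℝ) : τ1 0 t * τ2 0 t = 0 := by
  rcases le_total t 1 with h | h
  · rw [τ2_of_le h, mul_zero]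
  · rw [τ1_of_ge h, zero_mul]

lemma τ2_periodic {j : ℕ} {t : ℝ} (h : 1 ≤ t) : τ2 j (t + 1) = τ2 j t := by
  unfold τ2
  rw [if_neg (by linarith), if_neg (by linarith), Int.fract_add_one]

lemma τ1_nonneg (t : ℝ) : 0 ≤ τ1 0 t := by
  unfold τ1; rw [Bj_zero]; exact bm_nonneg _ _ _

lemma τ2_nonneg (t : ℝ) : 0 ≤ τ2 0 t := by
  unfold τ2
  split_ifs
  · exact le_rfl
  · rw [Bj_zero]; exact bm_nonneg _ _ _

lemma τ1_cont (j : ℕ) : Continuous (τ1 j) := (tower_τ1.contDiff j).continuous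
lemma τ2_cont (j : ℕ) : Continuous (τ2 j) := (tower_τ2.contDiff j).continuous

/-- total displacement in the first phase -/
noncomputable def ZZ : ℝ := ∫ t in (0 : ℝ)..1, τ1 0 t

lemma ZZ_pos : 0 < ZZ := by
  refine intervalIntegral.intervalIntegral_pos_of_pos_on ((τ1_cont 0).intervalIntegrable 0 1) ?_ one_pos
  intro t ht
  unfold τ1; rw [Bj_zero]
  exact bm_pos ht.1 ht.2

lemma ZZ_le : ZZ ≤ 1 := by
  have h1 : ZZ ≤ ∫ _ in (0 : ℝ)..1, (1 : ℝ) := by
    refine intervalIntegral.integral_mono_on zero_le_one ((τ1_cont 0).intervalIntegrable 0 1)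
      (by simp) ?_
    intro t _
    have := abs_bm_le 0 0 0 1 t
    unfold τ1; rw [Bj_zero]
    simp at this
    exact (le_abs_self _).trans this
  simpa using h1

/-- left end points -/
noncomputable def lN (Q : ℕ) (N : ℕ) : ℝ := 1 / (Q : ℝ) ^ (N + 1)
/-- right end points -/
noncomputable def rN (Q : ℕ) (N : ℕ) : ℝ := 1 / (2 * (Q : ℝ) ^ N)

/-- the space profile and its derivatives, before periodization -/
noncomputable def G0 (Q : ℕ) (a : ℕ → ℝ) (j : ℕ) (y : ℝ) : ℝ := ∑' N, a N * Bj j (lN Q N) (rN Q N) y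

section G

variable {Q : ℕ} (hQ : 2 ≤ Q) {a : ℕ → ℝ} (ha0 : ∀ N, 0 ≤ a N) (ha1 : ∀ N, a N ≤ (1 / 2) ^ N)

include ha0 ha1

lemma G0_tower : IsTower (G0 Q a) := by
  intro j y
  obtain ⟨C, hC, hb⟩ := Bj_bound (j + 1)
  obtain ⟨C', hC', hb'⟩ := Bj_bound j
  unfold G0
  have hs : Summable (fun N : ℕ => ((1 / 2 : ℝ)) ^ N) := summable_geometric_of_lt_one (by norm_num) (by norm_num)
  refine hasDerivAt_tsum (u := fun N => (1 / 2) ^ N * C) (g := fun N y => a N * Bj j (lN Q N) (rN Q N) y)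
    (g' := fun N y => a N * Bj (j + 1) (lN Q N) (rN Q N) y) (hs.mul_right C) ?_ ?_ (y₀ := 0) ?_ y
  · intro N y
    exact (hasDerivAt_Bj j _ _ y).const_mul (a N)
  · intro N y
    rw [Real.norm_eq_abs, abs_mul, abs_of_nonneg (ha0 N)]
    exact mul_le_mul (ha1 N) (hb _ _ _) (abs_nonneg _) (by positivity)
  · refine Summable.of_norm_bounded (hs.mul_right C') fun N => ?_
    rw [Real.norm_eq_abs, abs_mul, abs_of_nonneg (ha0 N)]
    exact mul_le_mul (ha1 N) (hb' _ _ _) (abs_nonneg _) (by positivity)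

omit ha0 ha1 in
lemma G0_of_le {j : ℕ} {y : ℝ} (h : y ≤ 0) : G0 Q a j y = 0 := by
  unfold G0
  have : ∀ N, a N * Bj j (lN Q N) (rN Q N) y = 0 := by
    intro N
    rw [Bj_of_le, mul_zero]
    have : 0 ≤ lN Q N := by unfold lN; positivity
    linarith
  simp [this]

include hQ in
omit ha0 ha1 in
lemma rN_le (N : ℕ) : rN Q N ≤ 1 / 2 := by
  unfold rN
  have h1 : (1 : ℝ) ≤ (Q : ℝ) ^ N := one_le_pow₀ (by exact_mod_cast (by omega : 1 ≤ Q))
  apply one_div_le_one_div_of_le (by norm_num)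
  linarith

include hQ in
omit ha0 ha1 in
lemma G0_of_ge {j : ℕ} {y : ℝ} (h : 1 ≤ y) : G0 Q a j y = 0 := by
  unfold G0
  have : ∀ N, a N * Bj j (lN Q N) (rN Q N) y = 0 := by
    intro N
    rw [Bj_of_ge, mul_zero]
    have := rN_le hQ N
    linarith
  simp [this]

include hQ in
omit ha0 ha1 in
lemma G0_single {N : ℕ} {y : ℝ} (h1 : lN Q N < y) (h2 : y < rN Q N) :
    G0 Q a 0 y = a N * bm 0 0 (lN Q N) (rN Q N) y := by
  unfold G0
  have hQ0 : (0 : ℝ) < Q := by exact_mod_cast (by omega : 0 < Q)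
  have hQ1 : (1 : ℝ) ≤ Q := by exact_mod_cast (by omega : 1 ≤ Q)
  have hQ2 : (2 : ℝ) ≤ Q := by exact_mod_cast hQ
  rw [tsum_eq_single N]
  · rw [Bj_zero]
  · intro N' hN'
    rcases lt_or_gt_of_ne hN' with h | h
    · rw [Bj_of_le, mul_zero]
      have h3 : rN Q N ≤ lN Q N' := by
        unfold rN lN
        apply one_div_le_one_div_of_le (by positivity)
        have : (Q : ℝ) ^ (N' + 1) ≤ (Q : ℝ) ^ N := pow_le_pow_right₀ hQ1 (by omega)
        have h0 : (0 : ℝ) < (Q : ℝ) ^ N := by positivity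
        linarith
      linarith
    · rw [Bj_of_ge, mul_zero]
      have h3 : rN Q N' ≤ lN Q N := by
        unfold rN lN
        apply one_div_le_one_div_of_le (by positivity)
        have : (Q : ℝ) ^ (N + 1) ≤ (Q : ℝ) ^ N' := pow_le_pow_right₀ hQ1 (by omega)
        have h0 : (0 : ℝ) < (Q : ℝ) ^ N' := by positivity
        linarith
      linarith

/-- the periodic space profile -/
noncomputable def G (Q : ℕ) (a : ℕ → ℝ) (j : ℕ) (y : ℝ) : ℝ := G0 Q a j (Int.fract y)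

include hQ in
lemma G_tower : IsTower (G Q a) :=
  (G0_tower ha0 ha1).periodize (fun _ _ h => G0_of_le h) (fun _ _ h => G0_of_ge hQ h)

omit ha0 ha1 in
lemma G_periodic (j : ℕ) (y : ℝ) (k : ℤ) : G Q a j (y + k) = G Q a j y := by
  unfold G; rw [Int.fract_add_intCast]

end G

/-- the scale parameter: `Q = 8 K` where `1 / K ≤ Z` -/
lemma exists_K : ∃ K : ℕ, 1 ≤ K ∧ 1 / (K : ℝ) ≤ ZZ := by
  obtain ⟨n, hn⟩ := exists_nat_gt (1 / ZZ)
  have hn0 : (0 : ℝ) < n := lt_trans (by have := ZZ_pos; positivity) hn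
  refine ⟨n, by exact_mod_cast hn0, ?_⟩
  rw [div_le_iff₀ hn0]
  rw [div_lt_iff₀ ZZ_pos] at hn
  linarith

/-- the constant -/
noncomputable def KK : ℕ := exists_K.choose
/-- the ratio -/
noncomputable def QQ : ℕ := 8 * KK

lemma KK_pos : 1 ≤ KK := exists_K.choose_spec.1
lemma KK_le : 1 / (KK : ℝ) ≤ ZZ := exists_K.choose_spec.2
lemma QQ_ge : 2 ≤ QQ := by have := KK_pos; unfold QQ; omega

/-- displacement velocity for index `N` -/
noncomputable def cN (N : ℕ) : ℝ := 1 / (4 * (QQ : ℝ) ^ N)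

lemma cN_mem (N : ℕ) : lN QQ N < cN N * ZZ ∧ cN N * ZZ < rN QQ N := by
  have hQ0 : (0 : ℝ) < QQ := by exact_mod_cast (by have := QQ_ge; omega : 0 < QQ)
  have hK0 : (0 : ℝ) < KK := by exact_mod_cast KK_pos
  have hQK : (QQ : ℝ) = 8 * KK := by unfold QQ; push_cast; ring
  have hp : (0 : ℝ) < (QQ : ℝ) ^ N := by positivity
  have hc : 0 < cN N := by unfold cN; positivity
  constructor
  · have h1 : lN QQ N < cN N * (1 / KK) := by
      unfold lN cN
      rw [pow_succ]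
      rw [div_mul_div_comm, one_mul]
      apply one_div_lt_one_div_of_lt (by positivity)
      rw [hQK]
      nlinarith [mul_pos (pow_pos (show (0 : ℝ) < 8 * KK by positivity) N) hK0]
    have h2 : cN N * (1 / KK) ≤ cN N * ZZ := mul_le_mul_of_nonneg_left KK_le hc.le
    linarith
  · have h1 : cN N * ZZ ≤ cN N * 1 := mul_le_mul_of_nonneg_left ZZ_le hc.le
    have h2 : cN N * 1 < rN QQ N := by
      unfold rN cN
      rw [mul_one]
      apply one_div_lt_one_div_of_lt (by positivity)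
      linarith
    linarith

lemma G_at (a : ℕ → ℝ) (N : ℕ) :
    G QQ a 0 (cN N * ZZ) = a N * bm 0 0 (lN QQ N) (rN QQ N) (cN N * ZZ) := by
  have h := cN_mem N
  have h0 : 0 ≤ lN QQ N := by unfold lN; positivity
  have h1 := rN_le QQ_ge N
  have hf : Int.fract (cN N * ZZ) = cN N * ZZ := by
    rw [Int.fract_eq_self]; constructor <;> linarith [h.1, h.2]
  unfold G
  rw [hf]
  exact G0_single QQ_ge h.1 h.2

lemma G_at_pos {a : ℕ → ℝ} {N : ℕ} (h : 0 < a N) : 0 < G QQ a 0 (cN N * ZZ) := by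
  rw [G_at]
  exact mul_pos h (bm_pos (cN_mem N).1 (cN_mem N).2)

lemma G_at_zero {a : ℕ → ℝ} {N : ℕ} (h : a N = 0) : G QQ a 0 (cN N * ZZ) = 0 := by
  rw [G_at, h, zero_mul]

end Vale.Agent.P113
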