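import Vale.Agent.P113.Defs
import Vale.Agent.P113.Fields

/-! The explicit flow and force. -/

namespace Vale.Agent.P113

open Set Filter Topology MeasureTheory
open scoped ContDiff

/-- unit vectors -/
noncomputable def E1 : R3 := Pi.single 1 1
noncomputable def E2 : R3 := Pi.single 2 1

/-- velocity -/
noncomputable def vel (c : ℝ) (G : ℕ → ℝ → ℝ) (t : ℝ) (x : R3) : R3 :=
  (c * τ1 0 t) • E1 + (τ2 0 t * G 0 (x 1)) • E2

/-- force -/
noncomputable def force (ν c : ℝ) (G : ℕ → ℝ → ℝ) (t : ℝ) (x : R3) : R3 :=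
  (c * τ1 1 t) • E1 + (τ2 1 t * G 0 (x 1) - ν * (τ2 0 t * G 2 (x 1))) • E2

@[simp] lemma E1_0 : E1 0 = 0 := by simp [E1]
@[simp] lemma E1_1 : E1 1 = 1 := by simp [E1]
@[simp] lemma E1_2 : E1 2 = 0 := by simp [E1]
@[simp] lemma E2_0 : E2 0 = 0 := by simp [E2]
@[simp] lemma E2_1 : E2 1 = 0 := by simp [E2]
@[simp] lemma E2_2 : E2 2 = 1 := by simp [E2]

/-- `v ↦ v 1 • E2` -/
noncomputable def LL : R3 →L[ℝ] R3 := (ContinuousLinearMap.proj (R := ℝ) (φ := fun _ : Fin 3 => ℝ) 1).smulRight E2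

lemma LL_apply (v : R3) : LL v = v 1 • E2 := by simp [LL]

section

variable {ν c : ℝ} {G : ℕ → ℝ → ℝ} (hG : IsTower G)

include hG

lemma hasDerivAt_vel_t (t : ℝ) (x : R3) :
    HasDerivAt (fun s => vel c G s x) ((c * τ1 1 t) • E1 + (τ2 1 t * G 0 (x 1)) • E2) t := by
  unfold vel
  exact (((tower_τ1 0 t).const_mul c).smul_const E1).add
    (((tower_τ2 0 t).mul_const (G 0 (x 1))).smul_const E2)

lemma hasFDerivAt_Gx (j : ℕ) (x : R3) : HasFDerivAt (fun y : R3 => G j (y 1))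
    (G (j + 1) (x 1) • ContinuousLinearMap.proj (R := ℝ) (φ := fun _ : Fin 3 => ℝ) 1) x := by
  have h1 : HasFDerivAt (fun y : R3 => y 1)
      (ContinuousLinearMap.proj (R := ℝ) (φ := fun _ : Fin 3 => ℝ) 1) x :=
    (ContinuousLinearMap.proj (R := ℝ) (φ := fun _ : Fin 3 => ℝ) 1).hasFDerivAt
  exact (hG j (x 1)).comp_hasFDerivAt x h1

lemma hasFDerivAt_vel_x (t : ℝ) (x : R3) :
    HasFDerivAt (vel c G t) ((τ2 0 t * G 1 (x 1)) • LL) x := by
  unfold vel
  have h := ((hasFDerivAt_Gx hG 0 x).const_mul (τ2 0 t)).smul_const E2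
  have h2 := (hasFDerivAt_const ((c * τ1 0 t) • E1) x).add h
  refine h2.congr_fderiv ?_
  ext v i
  simp [LL]
  ring

lemma fderiv_vel (t : ℝ) : fderiv ℝ (vel c G t) = fun x => (τ2 0 t * G 1 (x 1)) • LL :=
  funext fun x => (hasFDerivAt_vel_x hG t x).fderiv

lemma hasFDerivAt_fderiv_vel (t : ℝ) (x : R3) :
    HasFDerivAt (fderiv ℝ (vel c G t))
      ((τ2 0 t * G 2 (x 1)) • (ContinuousLinearMap.proj (R := ℝ) (φ := fun _ : Fin 3 => ℝ) 1).smulRight LL) x := by
  rw [fderiv_vel hG]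
  have h := ((hasFDerivAt_Gx hG 1 x).const_mul (τ2 0 t)).smul_const LL
  refine h.congr_fderiv ?_
  ext v w i
  simp [LL]
  ring

lemma fderiv_fderiv_vel (t : ℝ) : fderiv ℝ (fderiv ℝ (vel c G t)) = fun x =>
    (τ2 0 t * G 2 (x 1)) • (ContinuousLinearMap.proj (R := ℝ) (φ := fun _ : Fin 3 => ℝ) 1).smulRight LL :=
  funext fun x => (hasFDerivAt_fderiv_vel hG t x).fderiv

lemma pd_vel (t : ℝ) (x : R3) (j i : Fin 3) :
    pd j (vel c G t) x i = if j = 1 ∧ i = 2 then τ2 0 t * G 1 (x 1) else 0 := by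
  unfold pd
  rw [fderiv_vel hG]
  fin_cases j <;> fin_cases i <;> simp [LL]

lemma pdd_vel (t : ℝ) (x : R3) (j i : Fin 3) :
    pdd j (vel c G t) x i = if j = 1 ∧ i = 2 then τ2 0 t * G 2 (x 1) else 0 := by
  unfold pdd
  rw [fderiv_fderiv_vel hG]
  fin_cases j <;> fin_cases i <;> simp [LL]

lemma contDiff_τ1 (j : ℕ) : ContDiff ℝ ∞ (fun q : ℝ × R3 => τ1 j q.1) :=
  (tower_τ1.contDiff j).comp contDiff_fst

lemma contDiff_τ2 (j : ℕ) : ContDiff ℝ ∞ (fun q : ℝ × R3 => τ2 j q.1) :=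
  (tower_τ2.contDiff j).comp contDiff_fst

lemma contDiff_Gx (j : ℕ) : ContDiff ℝ ∞ (fun q : ℝ × R3 => G j (q.2 1)) := by
  have h : ContDiff ℝ ∞ (fun q : ℝ × R3 => q.2 1) := by fun_prop
  exact (hG.contDiff j).comp h

lemma contDiff_vel : ContDiff ℝ ∞ (fun q : ℝ × R3 => vel c G q.1 q.2) := by
  unfold vel
  exact (((contDiff_const.mul (contDiff_τ1 hG 0))).smul contDiff_const).add
    (((contDiff_τ2 hG 0).mul (contDiff_Gx hG 0)).smul contDiff_const)

lemma contDiff_force : ContDiff ℝ ∞ (fun q : ℝ × R3 => force ν c G q.1 q.2) := by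
  unfold force
  exact (((contDiff_const.mul (contDiff_τ1 hG 1))).smul contDiff_const).add
    ((((contDiff_τ2 hG 1).mul (contDiff_Gx hG 0)).sub
      (contDiff_const.mul ((contDiff_τ2 hG 0).mul (contDiff_Gx hG 2)))).smul contDiff_const)

omit hG in
lemma vel_smooth_x_aux (t : ℝ) (H : ContDiff ℝ ∞ (G 0)) : ContDiff ℝ ∞ (vel c G t) := by
  unfold vel
  have h : ContDiff ℝ ∞ (fun x : R3 => x 1) := by fun_prop
  have h2 : ContDiff ℝ ∞ (fun x : R3 => G 0 (x 1)) := H.comp h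
  exact contDiff_const.add ((contDiff_const.mul h2).smul contDiff_const)

lemma derivWithin_vel {T : ℝ} (hT : 0 < T) {t : ℝ} (ht : t ∈ Icc 0 T) (x : R3) :
    derivWithin (fun s => vel c G s x) (Icc 0 T) t =
      (c * τ1 1 t) • E1 + (τ2 1 t * G 0 (x 1)) • E2 :=
  (hasDerivAt_vel_t hG t x).hasDerivWithinAt.derivWithin (uniqueDiffOn_Icc hT t ht)

lemma cont_ut_vel {T : ℝ} (hT : 0 < T) :
    ContinuousOn (fun q : ℝ × R3 => derivWithin (fun s => vel c G s q.2) (Icc 0 T) q.1)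
      (Icc 0 T ×ˢ univ) := by
  have h : ContinuousOn (fun q : ℝ × R3 => (c * τ1 1 q.1) • E1 + (τ2 1 q.1 * G 0 (q.2 1)) • E2)
      (Icc 0 T ×ˢ univ) := by
    refine Continuous.continuousOn ?_
    have h1 := (contDiff_τ1 hG 1).continuous
    have h2 := (contDiff_τ2 hG 1).continuous
    have h3 := (contDiff_Gx hG 0).continuous
    exact ((continuous_const.mul h1).smul continuous_const).add ((h2.mul h3).smul continuous_const)
  refine h.congr ?_
  rintro ⟨t, x⟩ ht
  exact derivWithin_vel hG hT ht.1 x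

lemma cont_du_vel {T : ℝ} :
    ContinuousOn (fun q : ℝ × R3 => fderiv ℝ (vel c G q.1) q.2) (Icc 0 T ×ˢ univ) := by
  simp only [fderiv_vel hG]
  refine Continuous.continuousOn ?_
  exact (((contDiff_τ2 hG 0).continuous).mul (contDiff_Gx hG 1).continuous).smul continuous_const

lemma cont_ddu_vel {T : ℝ} :
    ContinuousOn (fun q : ℝ × R3 => fderiv ℝ (fderiv ℝ (vel c G q.1)) q.2) (Icc 0 T ×ˢ univ) := by
  simp only [fderiv_fderiv_vel hG]
  refine Continuous.continuousOn ?_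
  exact (((contDiff_τ2 hG 0).continuous).mul (contDiff_Gx hG 2).continuous).smul continuous_const

lemma momentum_vel {T : ℝ} (hT : 0 < T) : ∀ t ∈ Icc 0 T, ∀ x i,
    derivWithin (fun s => vel c G s x) (Icc 0 T) t i + ∑ j, vel c G t x j * pd j (vel c G t) x i =
      - fderiv ℝ ((fun _ _ => 0 : ℝ → R3 → ℝ) t) x (Pi.single i 1) + ν * ∑ j, pdd j (vel c G t) x i
        + force ν c G t x i := by
  intro t ht x i
  rw [derivWithin_vel hG hT ht x]
  simp only [pd_vel hG, pdd_vel hG, Fin.sum_univ_three, fderiv_fun_const]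
  have h12 := τ1_mul_τ2 t
  fin_cases i
  · simp [force]
  · simp [force]
  · simp [force, vel]
    rcases mul_eq_zero.mp h12 with h | h <;> simp [h]

lemma classical (hper : ∀ j y (k : ℤ), G j (y + k) = G j y) {T : ℝ} (hT : 0 < T) :
    IsClassicalSolution ν (force ν c G) T (vel c G) (fun _ _ => 0) where
  periodic_u := by
    intro t _ x k
    unfold vel shift
    rw [hper]
  periodic_p := by
    intro t _ x k; rfl
  diff_t := by
    intro x t _
    exact (hasDerivAt_vel_t hG t x).differentiableAt.differentiableWithinAt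
  smooth_u := by
    intro t _
    have h := contDiff_infty.mp (vel_smooth_x_aux (c := c) t (hG.contDiff 0)) 2
    exact_mod_cast h
  smooth_p := by
    intro t _; exact contDiff_const
  cont_u := (contDiff_vel hG).continuous.continuousOn
  cont_ut := cont_ut_vel hG hT
  cont_du := cont_du_vel hG
  cont_ddu := cont_ddu_vel hG
  cont_p := continuousOn_const
  cont_dp := by
    simp only [fderiv_fun_const]
    exact continuousOn_const
  momentum := momentum_vel hG hT
  div_free := by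
    intro t ht x
    simp only [pd_vel hG, Fin.sum_univ_three]
    simp
  init := by
    intro x
    unfold vel
    rw [τ1_of_le le_rfl, τ2_of_lt one_pos]
    simp
  mean_zero := by
    intro t ht; simp

lemma isSmoothForce_force (hper : ∀ j y (k : ℤ), G j (y + k) = G j y) :
    IsSmoothForce (force ν c G) := by
  refine ⟨contDiff_force hG, fun t x k => ?_⟩
  unfold force shift
  rw [hper, hper]

end

lemma force_of_ge {ν c : ℝ} {G : ℕ → ℝ → ℝ} {t : ℝ} (ht : 1 ≤ t) (x : R3) :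
    force ν c G t x = (τ2 1 t * G 0 (x 1) - ν * (τ2 0 t * G 2 (x 1))) • E2 := by
  unfold force
  rw [τ1_of_ge ht, mul_zero, zero_smul, zero_add]

lemma force_indep {ν c c' : ℝ} {G : ℕ → ℝ → ℝ} {t : ℝ} (ht : 1 ≤ t) (x : R3) :
    force ν c G t x = force ν c' G t x := by
  rw [force_of_ge ht, force_of_ge ht]

lemma force_per {ν c : ℝ} {G : ℕ → ℝ → ℝ} {t : ℝ} (ht : 1 ≤ t) (x : R3) :
    force ν c G (t + 1) x = force ν c G t x := by
  rw [force_of_ge ht, force_of_ge (by linarith), τ2_periodic ht, τ2_periodic ht]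

end Vale.Agent.P113
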