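import Vale.Agent.P113.TM
import Vale.Agent.P113.Flow

/-! Computability of the building blocks of the force at rational points. -/

namespace Vale.Agent.P113

/-- triples `(l, r, x)` of rational codes -/
abbrev Q33 := Q3 × Q3 × Q3

lemma rv_pos_iff (r : Q3) : 0 < rv r ↔ r.2.1 < r.1 := by
  unfold rv
  rw [div_pos_iff_of_pos_right (by positivity), sub_pos, Nat.cast_lt]

lemma CRF_em : CRF (fun z : ℕ × Q3 => em z.1 (rv z.2)) := by
  have ca : Computable fun z : ℕ × Q3 => z.2.1 := c1 Computable.snd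
  have cb : Computable fun z : ℕ × Q3 => z.2.2.1 := c2 Computable.snd
  have cd : Computable fun z : ℕ × Q3 => z.2.2.2 + 1 := c3' Computable.snd
  have h1 : CRF (fun z : ℕ × Q3 => rv (((z.2.2.2 + 1) ^ z.1, 0, (z.2.1 - z.2.2.1) ^ z.1 - 1) : Q3)) :=
    CRF.of_rat ((cpow cd Computable.fst).pair ((ccst 0).pair
      (csub (cpow (csub ca cb) Computable.fst) (ccst 1))))
  have h2 : CRF (fun z : ℕ × Q3 => Real.exp (-(((z.2.2.2 + 1 : ℕ) : ℝ) / ((z.2.1 - z.2.2.1 - 1 : ℕ) + 1)))) :=
    CRF.expneg cd (csub (csub ca cb) (ccst 1))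
  refine (CRF.ite (c := fun z : ℕ × Q3 => z.2.2.1 < z.2.1) (clt cb ca) (h1.mul h2) CRF.zero).congr ?_
  rintro ⟨m, r⟩
  simp only
  split_ifs with h
  · have hp := (rv_pos_iff r).mpr h
    rw [em_of_pos hp]
    have hs : 0 < r.1 - r.2.1 := by omega
    have hcast : ((r.1 - r.2.1 : ℕ) : ℝ) = (r.1 : ℝ) - r.2.1 := Nat.cast_sub h.le
    have hinv : (rv r)⁻¹ = ((r.2.2 + 1 : ℕ) : ℝ) / ((r.1 - r.2.1 : ℕ) : ℝ) := by
      unfold rv
      rw [inv_div, hcast]; push_cast; rfl
    rw [cast_sub_one hs, ← hinv]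
    congr 1
    unfold rv
    simp only
    rw [cast_sub_one (by positivity), Nat.cast_zero, sub_zero, Nat.cast_pow, Nat.cast_pow, ← div_pow,
      ← hinv]
    rfl
  · exact em_of_nonpos (not_lt.mp (fun hp => h ((rv_pos_iff r).mp hp)))

lemma CRF_bm : CRF (fun z : (ℕ × ℕ) × Q33 => bm z.1.1 z.1.2 (rv z.2.1) (rv z.2.2.1) (rv z.2.2.2)) := by
  have cl : Computable fun z : (ℕ × ℕ) × Q33 => z.2.1 := Computable.fst.comp Computable.snd
  have cr : Computable fun z : (ℕ × ℕ) × Q33 => z.2.2.1 :=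
    Computable.fst.comp (Computable.snd.comp Computable.snd)
  have cx : Computable fun z : (ℕ × ℕ) × Q33 => z.2.2.2 :=
    Computable.snd.comp (Computable.snd.comp Computable.snd)
  have h1 := CRF_em.comp (h := fun z : (ℕ × ℕ) × Q33 => (z.1.1, qadd z.2.2.2 (qneg z.2.1)))
    ((Computable.fst.comp Computable.fst).pair (cqadd cx (cqneg cl)))
  have h2 := CRF_em.comp (h := fun z : (ℕ × ℕ) × Q33 => (z.1.2, qadd z.2.2.1 (qneg z.2.2.2)))
    ((Computable.snd.comp Computable.fst).pair (cqadd cr (cqneg cx)))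
  refine (h1.mul h2).congr fun z => ?_
  simp only [rv_qadd, rv_qneg, bm, sub_eq_add_neg]

lemma CRF_evalT : CRF (fun z : Term × Q33 => evalT (rv z.2.1) (rv z.2.2.1) (rv z.2.2.2) z.1) := by
  have h1 : CRF (fun z : Term × Q33 => rv ((z.1.1.1, z.1.1.2, 0) : Q3)) :=
    CRF.of_rat ((Computable.fst.comp (Computable.fst.comp Computable.fst)).pair
      ((Computable.snd.comp (Computable.fst.comp Computable.fst)).pair (ccst 0)))
  have h2 := CRF_bm.comp (h := fun z : Term × Q33 => (z.1.2, z.2))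
    ((Computable.snd.comp Computable.fst).pair Computable.snd)
  refine (h1.mul h2).congr fun z => ?_
  unfold evalT
  simp [rv]

lemma primrec_dterm : Primrec dterm := by
  have a : Primrec fun t : Term => t.1.1 := Primrec.fst.comp Primrec.fst
  have b : Primrec fun t : Term => t.1.2 := Primrec.snd.comp Primrec.fst
  have m : Primrec fun t : Term => t.2.1 := Primrec.fst.comp Primrec.snd
  have m' : Primrec fun t : Term => t.2.2 := Primrec.snd.comp Primrec.snd
  have p2 : ∀ {f : Term → ℕ}, Primrec f → Primrec fun t => f t + 2 := fun hf =>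
    Primrec.nat_add.comp hf (Primrec.const 2)
  have p1 : ∀ {f : Term → ℕ}, Primrec f → Primrec fun t => f t + 1 := fun hf =>
    Primrec.nat_add.comp hf (Primrec.const 1)
  have mu : ∀ {f g : Term → ℕ}, Primrec f → Primrec g → Primrec fun t => f t * g t :=
    fun hf hg => Primrec.nat_mul.comp hf hg
  unfold dterm
  refine Primrec.list_cons.comp ((a.pair b).pair ((p2 m).pair m')) ?_
  refine Primrec.list_cons.comp (((mu m b).pair (mu m a)).pair ((p1 m).pair m')) ?_
  refine Primrec.list_cons.comp ((b.pair a).pair (m.pair (p2 m'))) ?_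
  refine Primrec.list_cons.comp (((mu m' a).pair (mu m' b)).pair (m.pair (p1 m'))) ?_
  exact Primrec.const []

lemma primrec_Lt : Primrec Lt := by
  have h : Primrec₂ fun (_ : ℕ) (L : List Term) => L.flatMap dterm :=
    Primrec.list_flatMap Primrec.snd (primrec_dterm.comp Primrec.snd).to₂
  refine (Primrec.nat_rec₁ ([((1, 0), 0, 0)] : List Term) h).of_eq fun j => ?_
  induction j with
  | zero => rfl
  | succ j ih => simp only [Lt]; rw [← ih]

lemma list_sum_eq {α : Type} (d : α) (f : α → ℝ) (L : List α) :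
    (L.map f).sum = ∑ k ∈ Finset.range L.length, f (L.getD k d) := by
  induction L with
  | nil => simp
  | cons a L ih =>
    rw [List.map_cons, List.sum_cons, List.length_cons, Finset.sum_range_succ', ih, add_comm]
    simp

lemma CRF_Bj : CRF (fun z : ℕ × Q33 => Bj z.1 (rv z.2.1) (rv z.2.2.1) (rv z.2.2.2)) := by
  have h1 : CRF (fun z : (ℕ × Q33) × ℕ => evalT (rv z.1.2.1) (rv z.1.2.2.1) (rv z.1.2.2.2)
      ((Lt z.1.1).getD z.2 ((0, 0), 0, 0))) := by
    refine CRF_evalT.comp (h := fun z : (ℕ × Q33) × ℕ => ((Lt z.1.1).getD z.2 ((0, 0), 0, 0), z.1.2)) ?_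
    refine Computable.pair ?_ (Computable.snd.comp Computable.fst)
    exact (Primrec.list_getD _).to_comp.comp (primrec_Lt.to_comp.comp
      (Computable.fst.comp Computable.fst)) Computable.snd
  refine (CRF.sum h1 (n := fun z => (Lt z.1).length)
    (Primrec.list_length.to_comp.comp (primrec_Lt.to_comp.comp Computable.fst))).congr fun z => ?_
  unfold Bj
  rw [list_sum_eq ((0, 0), 0, 0)]

/-- fractional part of a code -/
def frq (r : Q3) : Q3 := ((r.1 + r.2.1 * r.2.2) % (r.2.2 + 1), 0, r.2.2)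

lemma rv_frq (r : Q3) : rv (frq r) = Int.fract (rv r) := by
  have h1 : rv r = ((r.1 + r.2.1 * r.2.2 : ℕ) : ℝ) / ((r.2.2 + 1 : ℕ) : ℝ) - ((r.2.1 : ℤ) : ℝ) := by
    unfold rv
    push_cast
    have : (r.2.2 : ℝ) + 1 ≠ 0 := by positivity
    field_simp
    ring
  rw [h1, Int.fract_sub_intCast, Int.fract_div_natCast_eq_div_natCast_mod]
  unfold rv frq
  push_cast
  simp

lemma computable_frq : Computable frq :=
  (cmod (cadd (c1 Computable.id) (cmul (c2 Computable.id) (c3 Computable.id)))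
    (c3' Computable.id)).pair ((ccst 0).pair (c3 Computable.id))

lemma rv_zero : rv ((0, 0, 0) : Q3) = 0 := by simp [rv]
lemma rv_one : rv ((1, 0, 0) : Q3) = 1 := by simp [rv]

lemma CRF_τ1 : CRF (fun z : ℕ × Q3 => τ1 z.1 (rv z.2)) := by
  refine (CRF_Bj.comp (h := fun z : ℕ × Q3 => (z.1, ((0, 0, 0), (1, 0, 0), z.2)))
    (Computable.fst.pair ((Computable.const _).pair ((Computable.const _).pair
      Computable.snd)))).congr fun z => ?_
  unfold τ1
  simp only [rv_zero, rv_one]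

lemma rv_lt_one_iff (r : Q3) : rv r < 1 ↔ r.1 < r.2.1 + (r.2.2 + 1) := by
  unfold rv
  rw [div_lt_one (by positivity), sub_lt_iff_lt_add']
  constructor
  · intro h; exact_mod_cast h
  · intro h; exact_mod_cast h

lemma CRF_τ2 : CRF (fun z : ℕ × Q3 => τ2 z.1 (rv z.2)) := by
  have h1 : CRF (fun z : ℕ × Q3 => Bj z.1 0 1 (Int.fract (rv z.2))) := by
    refine (CRF_Bj.comp (h := fun z : ℕ × Q3 => (z.1, ((0, 0, 0), (1, 0, 0), frq z.2)))
      (Computable.fst.pair ((Computable.const _).pair ((Computable.const _).pair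
        (computable_frq.comp Computable.snd))))).congr fun z => ?_
    simp only [rv_zero, rv_one, rv_frq]
  refine (CRF.ite (c := fun z : ℕ × Q3 => z.2.1 < z.2.2.1 + (z.2.2.2 + 1))
    (clt (c1 Computable.snd) (cadd (c2 Computable.snd) (c3' Computable.snd))) CRF.zero h1).congr ?_
  rintro ⟨j, r⟩
  unfold τ2
  simp only [rv_lt_one_iff]

/-- codes of the endpoints -/
def lq (N : ℕ) (Q : ℕ) : Q3 := (1, 0, Q ^ (N + 1) - 1)
def rq (N : ℕ) (Q : ℕ) : Q3 := (1, 0, 2 * Q ^ N - 1)

lemma rv_lq {Q : ℕ} (hQ : 0 < Q) (N : ℕ) : rv (lq N Q) = lN Q N := by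
  unfold rv lq lN
  simp only
  rw [cast_sub_one (by positivity)]
  push_cast; rw [sub_zero]

lemma rv_rq {Q : ℕ} (hQ : 0 < Q) (N : ℕ) : rv (rq N Q) = rN Q N := by
  unfold rv rq rN
  simp only
  rw [cast_sub_one (by positivity)]
  push_cast; rw [sub_zero]

lemma G_rat (j : ℕ) (r : Q3) : G QQ aa j (rv r) = ∑ N ∈ Finset.range (r.2.2 + 1),
    aa N * Bj j (lN QQ N) (rN QQ N) (Int.fract (rv r)) := by
  unfold G G0
  refine tsum_eq_sum fun N hN => ?_
  rw [Finset.mem_range, not_lt] at hN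
  rcases (Int.fract_nonneg (rv r)).eq_or_lt with h | h
  · rw [← h, Bj_of_le, mul_zero]
    unfold lN; positivity
  · rw [Bj_of_ge, mul_zero]
    have h1 : 1 / ((r.2.2 : ℝ) + 1) ≤ Int.fract (rv r) := by
      rw [← rv_frq] at h ⊢
      have h2 : 0 < (r.1 + r.2.1 * r.2.2) % (r.2.2 + 1) := (rv_pos_iff (frq r)).mp h
      unfold frq rv
      simp only
      have h3 : (1 : ℝ) ≤ ((r.1 + r.2.1 * r.2.2) % (r.2.2 + 1) : ℕ) := by exact_mod_cast h2
      rw [Nat.cast_zero, sub_zero]
      gcongr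
    refine le_trans ?_ h1
    unfold rN
    apply one_div_le_one_div_of_le (by positivity)
    have h4 : N < QQ ^ N := Nat.lt_pow_self (by have := QQ_ge; omega)
    have h5 : r.2.2 + 1 ≤ 2 * QQ ^ N := by omega
    exact_mod_cast h5

lemma CRF_G : CRF (fun z : ℕ × Q3 => G QQ aa z.1 (rv z.2)) := by
  have hQ : 0 < QQ := by have := QQ_ge; omega
  have h1 : CRF (fun z : (ℕ × Q3) × ℕ => aa z.2 * Bj z.1.1 (lN QQ z.2) (rN QQ z.2)
      (Int.fract (rv z.1.2))) := by
    refine (CRF_aa.comp Computable.snd).mul ?_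
    refine (CRF_Bj.comp (h := fun z : (ℕ × Q3) × ℕ => (z.1.1, (lq z.2 QQ, rq z.2 QQ, frq z.1.2)))
      ?_).congr fun z => ?_
    · refine (Computable.fst.comp Computable.fst).pair (Computable.pair ?_ (Computable.pair ?_
        (computable_frq.comp (Computable.snd.comp Computable.fst))))
      · exact (ccst 1).pair ((ccst 0).pair (csub (cpow (ccst QQ) (cadd Computable.snd (ccst 1)))
          (ccst 1)))
      · exact (ccst 1).pair ((ccst 0).pair (csub (cmul (ccst 2) (cpow (ccst QQ) Computable.snd))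
          (ccst 1)))
    · simp only [rv_lq hQ, rv_rq hQ, rv_frq]
  refine (CRF.sum h1 (n := fun z => z.2.2.2 + 1) (c3' Computable.snd)).congr fun z => ?_
  exact G_rat z.1 z.2

lemma CRF_cN : CRF cN := by
  have hQ : 0 < QQ := by have := QQ_ge; omega
  refine (CRF.of_rat (r := fun N : ℕ => ((1, 0, 4 * QQ ^ N - 1) : Q3)) ((ccst 1).pair ((ccst 0).pair
    (csub (cmul (ccst 4) (cpow (ccst QQ) Computable.id)) (ccst 1))))).congr fun N => ?_
  unfold rv cN
  simp only
  rw [cast_sub_one (by positivity)]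
  push_cast; rw [sub_zero]

end Vale.Agent.P113
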