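import Vale.Agent.P113.Div

/-! Uniqueness of classical solutions of the Navier-Stokes equations. -/

namespace Vale.Agent.P113

open Set Filter Topology MeasureTheory
open scoped ContDiff

lemma exists_shift (x : R3) : ∃ y ∈ Icc (0 : R3) 1, ∃ k : Fin 3 → ℤ, x = shift y k := by
  refine ⟨fun i => Int.fract (x i), ⟨fun i => Int.fract_nonneg _, fun i => (Int.fract_lt_one _).le⟩,
    fun i => ⌊x i⌋, ?_⟩
  funext i
  unfold shift
  exact (Int.fract_add_floor (x i)).symm

lemma closure_cube : Icc (0 : R3) 1 ⊆ closure (interior (Icc (0 : R3) 1)) := by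
  rw [← pi_univ_Icc, interior_pi_set finite_univ, closure_pi_set]
  intro x hx i hi
  have := hx i hi
  simp only [Pi.zero_apply, Pi.one_apply] at *
  rw [interior_Icc, closure_Ioo (by norm_num)]
  exact this

/-- a nonnegative continuous function with zero integral over the unit cube vanishes there -/
lemma eq_zero_of_integral {g : R3 → ℝ} (hg : Continuous g) (h0 : ∀ x, 0 ≤ g x)
    (hi : ∫ x in Icc (0 : R3) 1, g x = 0) : ∀ x ∈ Icc (0 : R3) 1, g x = 0 := by
  have h1 : g =ᵐ[volume.restrict (Icc (0 : R3) 1)] 0 := by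
    rwa [setIntegral_eq_zero_iff_of_nonneg_ae (Eventually.of_forall h0)
      (hg.continuousOn.integrableOn_compact isCompact_Icc)] at hi
  have h2 := Measure.eqOn_of_ae_eq h1 hg.continuousOn continuousOn_const closure_cube
  intro x hx
  exact h2 hx

lemma volume_cube : (volume (Icc (0 : R3) 1)) = 1 := by
  rw [Real.volume_Icc_pi]
  simp

section

variable {ν : ℝ} {f : ℝ → R3 → R3} {T : ℝ} {u v : ℝ → R3 → R3} {p q : ℝ → R3 → ℝ}

lemma abs_pd_le {g : R3 → R3} {x : R3} {C : ℝ} (h : ‖fderiv ℝ g x‖ ≤ C) (i j : Fin 3) :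
    |pd j g x i| ≤ C := by
  unfold pd
  have h1 : |fderiv ℝ g x (Pi.single j 1) i| ≤ ‖fderiv ℝ g x (Pi.single j 1)‖ :=
    norm_le_pi_norm (fderiv ℝ g x (Pi.single j 1)) i
  have h2 : ‖fderiv ℝ g x (Pi.single j 1)‖ ≤ ‖fderiv ℝ g x‖ * ‖(Pi.single j 1 : R3)‖ :=
    ContinuousLinearMap.le_opNorm _ _
  have h3 : ‖(Pi.single j 1 : R3)‖ = 1 := by
    rw [Pi.norm_single]; simp
  rw [h3, mul_one] at h2
  exact h1.trans (h2.trans h)

lemma pd_sub {U V : R3 → R3} (hU : Differentiable ℝ U) (hV : Differentiable ℝ V) (j i : Fin 3)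
    (x : R3) : pd j (fun y => V y - U y) x i = pd j V x i - pd j U x i := by
  unfold pd
  rw [fderiv_fun_sub (hV x) (hU x)]
  simp

lemma pdd_sub {U V : R3 → R3} (hU : ContDiff ℝ 2 U) (hV : ContDiff ℝ 2 V) (j i : Fin 3)
    (x : R3) : pdd j (fun y => V y - U y) x i = pdd j V x i - pdd j U x i := by
  have dU : Differentiable ℝ U := hU.differentiable (by norm_num)
  have dV : Differentiable ℝ V := hV.differentiable (by norm_num)
  rw [← D_pd j i (hV.sub hU), ← D_pd j i hV, ← D_pd j i hU]
  have : (fun y => pd j (fun y => V y - U y) y i) = fun y => pd j V y i - pd j U y i :=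
    funext fun y => pd_sub dU dV j i y
  unfold D
  change fderiv ℝ (fun y => pd j (fun y => V y - U y) y i) x _ = _
  rw [this, fderiv_fun_sub ((contDiff_pd j i hV).differentiable (by norm_num) x)
    ((contDiff_pd j i hU).differentiable (by norm_num) x)]
  simp

lemma D_sub {P Q : R3 → ℝ} (hP : Differentiable ℝ P) (hQ : Differentiable ℝ Q) (j : Fin 3)
    (x : R3) : D j (fun y => Q y - P y) x = D j Q x - D j P x := by
  unfold D
  rw [fderiv_fun_sub (hQ x) (hP x)]
  simp

/-- the time derivative of the difference -/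
noncomputable def wt (T : ℝ) (u v : ℝ → R3 → R3) (t : ℝ) (x : R3) : R3 :=
  derivWithin (fun s => v s x) (Icc 0 T) t - derivWithin (fun s => u s x) (Icc 0 T) t

lemma wt_eq (hu : IsClassicalSolution ν f T u p) (hv : IsClassicalSolution ν f T v q)
    {t : ℝ} (ht : t ∈ Icc 0 T) (x : R3) (i : Fin 3) :
    wt T u v t x i = (-(∑ j, v t x j * pd j (fun y => v t y - u t y) x i)
      - D i (fun y => q t y - p t y) x + ν * ∑ j, pdd j (fun y => v t y - u t y) x i)
      - ∑ j, (v t x j - u t x j) * pd j (u t) x i := by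
  have m1 := hu.momentum t ht x i
  have m2 := hv.momentum t ht x i
  have cu := hu.smooth_u t ht
  have cv := hv.smooth_u t ht
  have dU : Differentiable ℝ (u t) := cu.differentiable (by norm_num)
  have dV : Differentiable ℝ (v t) := cv.differentiable (by norm_num)
  have dP : Differentiable ℝ (p t) := (hu.smooth_p t ht).differentiable (by norm_num)
  have dQ : Differentiable ℝ (q t) := (hv.smooth_p t ht).differentiable (by norm_num)
  unfold wt
  rw [Pi.sub_apply, D_sub dP dQ]
  simp only [pd_sub dU dV, pdd_sub cu cv, Fin.sum_univ_three] at *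
  unfold D
  linarith

/-- energy of the difference -/
noncomputable def en (u v : ℝ → R3 → R3) (t : ℝ) : ℝ :=
  ∫ x in Icc (0 : R3) 1, ∑ i, (v t x i - u t x i) * (v t x i - u t x i)

noncomputable def en' (T : ℝ) (u v : ℝ → R3 → R3) (t : ℝ) : ℝ :=
  ∫ x in Icc (0 : R3) 1, ∑ i, 2 * (v t x i - u t x i) * wt T u v t x i

lemma cont_diff_comp (hu : IsClassicalSolution ν f T u p) (hv : IsClassicalSolution ν f T v q)
    (i : Fin 3) : ContinuousOn (fun z : ℝ × R3 => v z.1 z.2 i - u z.1 z.2 i) (Icc 0 T ×ˢ univ) :=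
  ((continuousOn_pi.mp hv.cont_u) i).sub ((continuousOn_pi.mp hu.cont_u) i)

lemma cont_wt_comp (hu : IsClassicalSolution ν f T u p) (hv : IsClassicalSolution ν f T v q)
    (i : Fin 3) : ContinuousOn (fun z : ℝ × R3 => wt T u v z.1 z.2 i) (Icc 0 T ×ˢ univ) :=
  ((continuousOn_pi.mp hv.cont_ut) i).sub ((continuousOn_pi.mp hu.cont_ut) i)

/-- the energy density is jointly continuous -/
lemma cont_en (hu : IsClassicalSolution ν f T u p) (hv : IsClassicalSolution ν f T v q) :
    ContinuousOn (fun z : ℝ × R3 => ∑ i, (v z.1 z.2 i - u z.1 z.2 i) * (v z.1 z.2 i - u z.1 z.2 i))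
      (Icc 0 T ×ˢ univ) :=
  continuousOn_finsetSum _ fun i _ => (cont_diff_comp hu hv i).mul (cont_diff_comp hu hv i)

lemma cont_en' (hu : IsClassicalSolution ν f T u p) (hv : IsClassicalSolution ν f T v q) :
    ContinuousOn (fun z : ℝ × R3 => ∑ i, 2 * (v z.1 z.2 i - u z.1 z.2 i) * wt T u v z.1 z.2 i)
      (Icc 0 T ×ˢ univ) :=
  continuousOn_finsetSum _ fun i _ =>
    (continuousOn_const.mul (cont_diff_comp hu hv i)).mul (cont_wt_comp hu hv i)

lemma slice_cont {g : ℝ → R3 → ℝ} (hg : ContinuousOn (fun z : ℝ × R3 => g z.1 z.2) (Icc 0 T ×ˢ univ))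
    {t : ℝ} (ht : t ∈ Icc 0 T) : Continuous (g t) := by
  have h1 : ContinuousOn (fun x : R3 => (t, x)) univ := by fun_prop
  have h2 : MapsTo (fun x : R3 => (t, x)) univ (Icc 0 T ×ˢ univ) := fun x _ => ⟨ht, mem_univ _⟩
  exact continuousOn_univ.mp (hg.comp h1 h2)

lemma time_cont {g : ℝ → R3 → ℝ} (hg : ContinuousOn (fun z : ℝ × R3 => g z.1 z.2) (Icc 0 T ×ˢ univ))
    (x : R3) : ContinuousOn (fun t => g t x) (Icc 0 T) := by
  have h1 : ContinuousOn (fun t : ℝ => (t, x)) (Icc 0 T) := by fun_prop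
  have h2 : MapsTo (fun t : ℝ => (t, x)) (Icc 0 T) (Icc 0 T ×ˢ univ) := fun t ht => ⟨ht, mem_univ _⟩
  exact hg.comp h1 h2

lemma bound_cube {E : Type*} [NormedAddCommGroup E] {g : ℝ × R3 → E}
    (hg : ContinuousOn g (Icc 0 T ×ˢ univ)) :
    ∃ C : ℝ, 0 ≤ C ∧ ∀ t ∈ Icc 0 T, ∀ x ∈ Icc (0 : R3) 1, ‖g (t, x)‖ ≤ C := by
  have hc : IsCompact (Icc (0 : ℝ) T ×ˢ Icc (0 : R3) 1) := isCompact_Icc.prod isCompact_Icc
  obtain ⟨C, hC⟩ := hc.exists_bound_of_continuousOn
    (hg.mono (prod_mono le_rfl (subset_univ _)))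
  exact ⟨max C 0, le_max_right _ _, fun t ht x hx => (hC (t, x) ⟨ht, hx⟩).trans (le_max_left _ _)⟩

lemma continuousOn_integral {g : ℝ → R3 → ℝ}
    (hg : ContinuousOn (fun z : ℝ × R3 => g z.1 z.2) (Icc 0 T ×ˢ univ)) :
    ContinuousOn (fun t => ∫ x in Icc (0 : R3) 1, g t x) (Icc 0 T) := by
  obtain ⟨C, hC, hb⟩ := bound_cube hg
  refine continuousOn_of_dominated (bound := fun _ => C) ?_ ?_ ?_ ?_
  · intro t ht
    exact (slice_cont hg ht).aestronglyMeasurable
  · intro t ht
    exact (ae_restrict_iff' measurableSet_Icc).mpr (Eventually.of_forall fun x hx => hb t ht x hx)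
  · exact integrableOn_const (by rw [volume_cube]; simp)
  · exact Eventually.of_forall fun x => time_cont hg x

lemma hasDerivAt_integral {g g' : ℝ → R3 → ℝ}
    (hg : ContinuousOn (fun z : ℝ × R3 => g z.1 z.2) (Icc 0 T ×ˢ univ))
    (hg' : ContinuousOn (fun z : ℝ × R3 => g' z.1 z.2) (Icc 0 T ×ˢ univ))
    (hd : ∀ t ∈ Ioo 0 T, ∀ x, HasDerivAt (fun s => g s x) (g' t x) t) {t : ℝ} (ht : t ∈ Ioo 0 T) :
    HasDerivAt (fun t => ∫ x in Icc (0 : R3) 1, g t x) (∫ x in Icc (0 : R3) 1, g' t x) t := by
  obtain ⟨C, hC, hb⟩ := bound_cube hg'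
  have ht' := Ioo_subset_Icc_self ht
  refine (hasDerivAt_integral_of_dominated_loc_of_deriv_le (bound := fun _ => C)
    (F := g) (s := Ioo 0 T)
    (Ioo_mem_nhds ht.1 ht.2) ?_ ?_ ?_ ?_ ?_ ?_).2
  · filter_upwards [Ioo_mem_nhds ht.1 ht.2] with s hs
    exact (slice_cont hg (Ioo_subset_Icc_self hs)).aestronglyMeasurable
  · exact (slice_cont hg ht').continuousOn.integrableOn_compact isCompact_Icc
  · exact (slice_cont hg' ht').aestronglyMeasurable
  · exact (ae_restrict_iff' measurableSet_Icc).mpr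
      (Eventually.of_forall fun x hx s hs => hb s (Ioo_subset_Icc_self hs) x hx)
  · exact integrableOn_const (by rw [volume_cube]; simp)
  · exact Eventually.of_forall fun x s hs => hd s hs x

lemma hasDerivAt_sol (hu : IsClassicalSolution ν f T u p) {t : ℝ} (ht : t ∈ Ioo 0 T) (x : R3) :
    HasDerivAt (fun s => u s x) (derivWithin (fun s => u s x) (Icc 0 T) t) t :=
  ((hu.diff_t x t (Ioo_subset_Icc_self ht)).hasDerivWithinAt).hasDerivAt (Icc_mem_nhds ht.1 ht.2)

lemma hasDerivAt_en (hu : IsClassicalSolution ν f T u p) (hv : IsClassicalSolution ν f T v q)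
    {t : ℝ} (ht : t ∈ Ioo 0 T) : HasDerivAt (en u v) (en' T u v t) t := by
  refine hasDerivAt_integral (g := fun t x => ∑ i, (v t x i - u t x i) * (v t x i - u t x i))
    (g' := fun t x => ∑ i, 2 * (v t x i - u t x i) * wt T u v t x i) (cont_en hu hv)
    (cont_en' hu hv) ?_ ht
  intro t ht x
  refine HasDerivAt.fun_sum fun i _ => ?_
  have h1 := (hasDerivAt_pi.mp (hasDerivAt_sol hu ht x)) i
  have h2 := (hasDerivAt_pi.mp (hasDerivAt_sol hv ht x)) i
  have h3 : HasDerivAt (fun s => v s x i - u s x i) (wt T u v t x i) t := h2.sub h1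
  refine (h3.mul h3).congr_deriv ?_
  ring

lemma en'_le (hν : 0 ≤ ν) (hu : IsClassicalSolution ν f T u p) (hv : IsClassicalSolution ν f T v q)
    {B : ℝ} (hB : 0 ≤ B) {t : ℝ} (ht : t ∈ Icc 0 T)
    (hb : ∀ x ∈ Icc (0 : R3) 1, ∀ i j, |pd j (u t) x i| ≤ B) :
    en' T u v t ≤ 6 * B * en u v t := by
  have cu := hu.smooth_u t ht
  have cv := hv.smooth_u t ht
  have dU : Differentiable ℝ (u t) := cu.differentiable (by norm_num)
  have dV : Differentiable ℝ (v t) := cv.differentiable (by norm_num)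
  have hsl := slice_le (ν := ν) (V := v t) (W := fun y => v t y - u t y)
    (P := fun y => q t y - p t y) (cv.of_le (by norm_num)) (cv.sub cu)
    ((hv.smooth_p t ht).sub (hu.smooth_p t ht)) hν (hv.periodic_u t ht)
    (fun x k => by simp only [hv.periodic_u t ht, hu.periodic_u t ht])
    (fun x k => by simp only [hv.periodic_p t ht, hu.periodic_p t ht]) (hv.div_free t ht)
    (fun x => by
      have e1 := hu.div_free t ht x
      have e2 := hv.div_free t ht x
      simp only [pd_sub dU dV, Finset.sum_sub_distrib]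
      rw [e1, e2, sub_zero])
  -- integrability
  have i1 : IntegrableOn (fun x => ∑ i, (v t x i - u t x i) * (v t x i - u t x i)) (Icc (0 : R3) 1) :=
    (slice_cont (g := fun t x => ∑ i, (v t x i - u t x i) * (v t x i - u t x i))
      (cont_en hu hv) ht).continuousOn.integrableOn_compact isCompact_Icc
  have i2 : IntegrableOn (fun x => ∑ i, 2 * (v t x i - u t x i) * wt T u v t x i) (Icc (0 : R3) 1) :=
    (slice_cont (g := fun t x => ∑ i, 2 * (v t x i - u t x i) * wt T u v t x i)
      (cont_en' hu hv) ht).continuousOn.integrableOn_compact isCompact_Icc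
  have hpt : ∀ x ∈ Icc (0 : R3) 1, (∑ i, 2 * (v t x i - u t x i) * wt T u v t x i)
      - 6 * B * (∑ i, (v t x i - u t x i) * (v t x i - u t x i)) ≤
      ∑ i, 2 * ((fun y => v t y - u t y) x i) *
        (-(∑ j, v t x j * pd j (fun y => v t y - u t y) x i) - D i (fun y => q t y - p t y) x
      + ν * ∑ j, pdd j (fun y => v t y - u t y) x i) := by
    intro x hx
    have hterm : ∀ i j, -(2 * (v t x i - u t x i) * ((v t x j - u t x j) * pd j (u t) x i)) ≤
        B * ((v t x i - u t x i) * (v t x i - u t x i) + (v t x j - u t x j) * (v t x j - u t x j)) := by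
      intro i j
      have h := abs_le.mp (hb x hx i j)
      set a := v t x i - u t x i
      set b := v t x j - u t x j
      set d := pd j (u t) x i
      nlinarith [mul_nonneg (sub_nonneg.mpr h.1) (mul_self_nonneg (a + b)),
        mul_nonneg (sub_nonneg.mpr h.2) (mul_self_nonneg (a - b)),
        mul_nonneg (sub_nonneg.mpr h.1) (mul_self_nonneg (a - b)),
        mul_nonneg (sub_nonneg.mpr h.2) (mul_self_nonneg (a + b))]
    simp only [wt_eq hu hv ht]
    simp only [Fin.sum_univ_three, Pi.sub_apply]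
    have h00 := hterm 0 0
    have h01 := hterm 0 1
    have h02 := hterm 0 2
    have h10 := hterm 1 0
    have h11 := hterm 1 1
    have h12 := hterm 1 2
    have h20 := hterm 2 0
    have h21 := hterm 2 1
    have h22 := hterm 2 2
    linarith
  unfold en' en
  rw [← sub_nonpos, ← integral_const_mul, ← integral_sub i2 (i1.const_mul _)]
  refine le_trans ?_ hsl
  refine setIntegral_mono_on (i2.sub (i1.const_mul _)) ?_ measurableSet_Icc hpt
  -- integrability of the right-hand side
  have hR : IntegrableOn (fun x => (∑ i, 2 * (v t x i - u t x i) * wt T u v t x i)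
      + ∑ i, ∑ j, 2 * (v t x i - u t x i) * ((v t x j - u t x j) * pd j (u t) x i)) (Icc (0 : R3) 1) := by
    refine i2.add ?_
    refine ContinuousOn.integrableOn_compact isCompact_Icc (Continuous.continuousOn ?_)
    have cw : ∀ i, Continuous (fun x => v t x i - u t x i) := fun i =>
      (contDiff_comp i (cv.sub cu)).continuous
    have cp : ∀ i j, Continuous (fun x => pd j (u t) x i) := fun i j => (contDiff_pd j i cu).continuous
    refine continuous_finsetSum _ fun i _ => continuous_finsetSum _ fun j _ => ?_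
    exact (continuous_const.mul (cw i)).mul ((cw j).mul (cp i j))
  refine hR.congr_fun ?_ measurableSet_Icc
  intro x _
  simp only [wt_eq hu hv ht]
  simp only [Fin.sum_univ_three, Pi.sub_apply]
  ring

theorem uniqueness (hν : 0 ≤ ν) (hT : 0 < T) (hu : IsClassicalSolution ν f T u p)
    (hv : IsClassicalSolution ν f T v q) :
    ∀ t ∈ Icc 0 T, ∀ x, v t x = u t x ∧ q t x = p t x := by
  obtain ⟨B, hB, hb⟩ := bound_cube hu.cont_du
  have h0 : en u v 0 = 0 := by
    unfold en
    simp [hu.init, hv.init]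
  have hnn : ∀ t, 0 ≤ en u v t := fun t =>
    integral_nonneg fun x => Finset.sum_nonneg fun i _ => mul_self_nonneg _
  have hcont : ContinuousOn (en u v) (Icc 0 T) := continuousOn_integral (cont_en hu hv)
  have hd : ∀ t ∈ Ioo 0 T, HasDerivAt (fun t => en u v t * Real.exp (-(6 * B) * t))
      (en' T u v t * Real.exp (-(6 * B) * t)
        + en u v t * (Real.exp (-(6 * B) * t) * (-(6 * B)))) t := by
    intro t ht
    have h2 : HasDerivAt (fun t => Real.exp (-(6 * B) * t)) (Real.exp (-(6 * B) * t) * (-(6 * B))) t := by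
      have := ((hasDerivAt_id t).const_mul (-(6 * B))).exp
      simpa using this
    exact (hasDerivAt_en hu hv ht).mul h2
  have hanti : AntitoneOn (fun t => en u v t * Real.exp (-(6 * B) * t)) (Icc 0 T) := by
    refine antitoneOn_of_deriv_nonpos (convex_Icc 0 T) ?_ ?_ ?_
    · exact hcont.mul (by fun_prop)
    · rw [interior_Icc]
      intro t ht
      exact (hd t ht).differentiableAt.differentiableWithinAt
    · rw [interior_Icc]
      intro t ht
      rw [(hd t ht).deriv]
      have h1 := en'_le hν hu hv hB (Ioo_subset_Icc_self ht)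
        (fun x hx i j => abs_pd_le (hb t (Ioo_subset_Icc_self ht) x hx) i j)
      have h2 := Real.exp_pos (-(6 * B) * t)
      nlinarith
  have hen : ∀ t ∈ Icc 0 T, en u v t = 0 := by
    intro t ht
    have h1 := hanti (left_mem_Icc.mpr hT.le) ht ht.1
    simp only [h0, zero_mul] at h1
    have h2 := Real.exp_pos (-(6 * B) * t)
    have h3 := hnn t
    nlinarith
  have huv : ∀ t ∈ Icc 0 T, ∀ x, v t x = u t x := by
    intro t ht x
    have h1 := eq_zero_of_integral
      (slice_cont (g := fun t x => ∑ i, (v t x i - u t x i) * (v t x i - u t x i)) (cont_en hu hv) ht)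
      (fun x => Finset.sum_nonneg fun i _ => mul_self_nonneg _) (hen t ht)
    obtain ⟨y, hy, k, rfl⟩ := exists_shift x
    rw [hv.periodic_u t ht, hu.periodic_u t ht]
    have h2 := h1 y hy
    rw [Finset.sum_eq_zero_iff_of_nonneg (fun i _ => mul_self_nonneg _)] at h2
    funext i
    have h3 := h2 i (Finset.mem_univ i)
    have h4 := mul_self_eq_zero.mp h3
    linarith
  intro t ht x
  refine ⟨huv t ht x, ?_⟩
  have dP : Differentiable ℝ (p t) := (hu.smooth_p t ht).differentiable (by norm_num)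
  have dQ : Differentiable ℝ (q t) := (hv.smooth_p t ht).differentiable (by norm_num)
  have hvt : v t = u t := funext (huv t ht)
  have hgrad : ∀ x, fderiv ℝ (fun y => q t y - p t y) x = 0 := by
    intro x
    have hi : ∀ i, D i (fun y => q t y - p t y) x = 0 := by
      intro i
      have m1 := hu.momentum t ht x i
      have m2 := hv.momentum t ht x i
      have hdw : derivWithin (fun s => v s x) (Icc 0 T) t = derivWithin (fun s => u s x) (Icc 0 T) t :=
        derivWithin_congr (fun s hs => huv s hs x) (huv t ht x)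
      rw [hdw, hvt] at m2
      rw [D_sub dP dQ]
      unfold D
      linarith
    ext w
    have hw : w = ∑ i, w i • (Pi.single i 1 : R3) := by
      funext k
      simp [Finset.sum_apply, Pi.single_apply]
    rw [hw, map_sum]
    simp only [map_smul]
    unfold D at hi
    simp [hi]
  have hconst : ∀ y, q t y - p t y = q t 0 - p t 0 := by
    intro y
    exact is_const_of_fderiv_eq_zero (𝕜 := ℝ) (dQ.sub dP) hgrad y 0
  have m1 := hu.mean_zero t ht
  have m2 := hv.mean_zero t ht
  have i1 : IntegrableOn (p t) (Icc (0 : R3) 1) :=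
    dP.continuous.continuousOn.integrableOn_compact isCompact_Icc
  have i2 : IntegrableOn (q t) (Icc (0 : R3) 1) :=
    dQ.continuous.continuousOn.integrableOn_compact isCompact_Icc
  have hs : ∫ y in Icc (0 : R3) 1, (q t y - p t y) = 0 := by
    rw [integral_sub i2 i1, m1, m2, sub_zero]
  simp only [hconst] at hs
  rw [setIntegral_const] at hs
  rw [Measure.real, volume_cube] at hs
  simp at hs
  have := hconst x
  linarith

end

end Vale.Agent.P113
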