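import Vale.Agent.P113.Flow

/-! Trajectories of the explicit flow. -/

namespace Vale.Agent.P113

open Set Filter Topology MeasureTheory
open scoped ContDiff

/-- the target open set `cos (2 π x₂) < 0` -/
def OO : Set R3 := {x | Real.cos (2 * Real.pi * x 2) < 0}

lemma isOpenTorusSet_OO : IsOpenTorusSet OO := by
  constructor
  · have h : Continuous (fun x : R3 => Real.cos (2 * Real.pi * x 2)) := by fun_prop
    exact isOpen_lt h continuous_const
  · intro x k
    unfold OO shift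
    simp only [mem_ofPred_eq]
    have : 2 * Real.pi * (x 2 + k 2) = 2 * Real.pi * x 2 + (k 2 : ℝ) * (2 * Real.pi) := by ring
    rw [this, Real.cos_add_int_mul_two_pi]

/-- primitives -/
noncomputable def I1 (t : ℝ) : ℝ := ∫ s in (0 : ℝ)..t, τ1 0 s
noncomputable def I2 (t : ℝ) : ℝ := ∫ s in (0 : ℝ)..t, τ2 0 s

lemma hasDerivAt_I1 (t : ℝ) : HasDerivAt I1 (τ1 0 t) t :=
  intervalIntegral.integral_hasDerivAt_right ((τ1_cont 0).intervalIntegrable _ _)
    ((τ1_cont 0).stronglyMeasurableAtFilter _ _) (τ1_cont 0).continuousAt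

lemma hasDerivAt_I2 (t : ℝ) : HasDerivAt I2 (τ2 0 t) t :=
  intervalIntegral.integral_hasDerivAt_right ((τ2_cont 0).intervalIntegrable _ _)
    ((τ2_cont 0).stronglyMeasurableAtFilter _ _) (τ2_cont 0).continuousAt

lemma I1_of_ge {t : ℝ} (ht : 1 ≤ t) : I1 t = ZZ := by
  unfold I1 ZZ
  rw [← intervalIntegral.integral_add_adjacent_intervals ((τ1_cont 0).intervalIntegrable 0 1)
    ((τ1_cont 0).intervalIntegrable 1 t)]
  have : ∫ s in (1 : ℝ)..t, τ1 0 s = ∫ s in (1 : ℝ)..t, (0 : ℝ) := by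
    apply intervalIntegral.integral_congr
    intro s hs
    rw [uIcc_of_le ht] at hs
    exact τ1_of_ge hs.1
  rw [this]; simp

lemma I2_of_le {t : ℝ} (ht : t ≤ 1) : I2 t = 0 := by
  unfold I2
  have : ∫ s in (0 : ℝ)..t, τ2 0 s = ∫ s in (0 : ℝ)..t, (0 : ℝ) := by
    apply intervalIntegral.integral_congr
    intro s hs
    have : s ≤ 1 := by
      rcases le_total 0 t with h | h
      · rw [uIcc_of_le h] at hs; linarith [hs.2]
      · rw [uIcc_of_ge h] at hs; linarith [hs.2]
    exact τ2_of_le this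
  rw [this]; simp

lemma τ2_shift (n : ℕ) (s : ℝ) (h0 : 0 ≤ s) (h1 : s ≤ 1) : τ2 0 (s + ((n : ℝ) + 1)) = τ1 0 s := by
  have hn : (0 : ℝ) ≤ n := Nat.cast_nonneg n
  unfold τ2 τ1
  rw [if_neg (by linarith)]
  rcases h1.lt_or_eq with h | h
  · have : Int.fract (s + ((n : ℝ) + 1)) = s := by
      have : s + ((n : ℝ) + 1) = s + ((n + 1 : ℤ) : ℝ) := by push_cast; ring
      rw [this, Int.fract_add_intCast, Int.fract_eq_self]
      exact ⟨h0, h⟩
    rw [this]
  · subst h
    have : Int.fract ((1 : ℝ) + ((n : ℝ) + 1)) = 0 := by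
      have : (1 : ℝ) + ((n : ℝ) + 1) = ((n + 2 : ℤ) : ℝ) := by push_cast; ring
      rw [this, Int.fract_intCast]
    rw [this, Bj_of_le le_rfl, Bj_of_ge le_rfl]

lemma I2_nat (n : ℕ) : I2 ((n : ℝ) + 1) = n * ZZ := by
  induction n with
  | zero => rw [Nat.cast_zero, zero_add, I2_of_le le_rfl, zero_mul]
  | succ n ih =>
    have h1 : I2 (((n + 1 : ℕ) : ℝ) + 1) = I2 ((n : ℝ) + 1) + ∫ s in ((n : ℝ) + 1)..((n : ℝ) + 2), τ2 0 s := by
      unfold I2
      rw [intervalIntegral.integral_add_adjacent_intervals ((τ2_cont 0).intervalIntegrable _ _)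
        ((τ2_cont 0).intervalIntegrable _ _)]
      congr 1
      push_cast; ring
    have h2 : ∫ s in ((n : ℝ) + 1)..((n : ℝ) + 2), τ2 0 s = ZZ := by
      have := intervalIntegral.integral_comp_add_right (a := 0) (b := 1) (fun s => τ2 0 s) ((n : ℝ) + 1)
      rw [show (0 : ℝ) + ((n : ℝ) + 1) = (n : ℝ) + 1 by ring,
        show (1 : ℝ) + ((n : ℝ) + 1) = (n : ℝ) + 2 by ring] at this
      rw [← this]
      unfold ZZ
      apply intervalIntegral.integral_congr
      intro s hs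
      rw [uIcc_of_le zero_le_one] at hs
      exact τ2_shift n s hs.1 hs.2
    rw [h1, h2, ih]
    push_cast; ring

lemma I2_cont : Continuous I2 := continuous_iff_continuousAt.mpr fun t => (hasDerivAt_I2 t).continuousAt

section

variable {c : ℝ} {G : ℕ → ℝ → ℝ}

/-- the trajectory through `0` -/
noncomputable def XX (c : ℝ) (G : ℕ → ℝ → ℝ) (t : ℝ) : R3 :=
  (c * I1 t) • E1 + (G 0 (c * ZZ) * I2 t) • E2

lemma XX_1 (t : ℝ) : XX c G t 1 = c * I1 t := by simp [XX]
lemma XX_2 (t : ℝ) : XX c G t 2 = G 0 (c * ZZ) * I2 t := by simp [XX]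

lemma isTrajectory_XX : IsTrajectory (vel c G) 0 (XX c G) := by
  constructor
  · unfold XX I1 I2; simp
  · intro t _
    have h : HasDerivAt (XX c G) ((c * τ1 0 t) • E1 + (G 0 (c * ZZ) * τ2 0 t) • E2) t := by
      unfold XX
      exact (((hasDerivAt_I1 t).const_mul c).smul_const E1).add
        (((hasDerivAt_I2 t).const_mul (G 0 (c * ZZ))).smul_const E2)
    have hv : vel c G t (XX c G t) = (c * τ1 0 t) • E1 + (G 0 (c * ZZ) * τ2 0 t) • E2 := by
      unfold vel
      rw [XX_1]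
      rcases le_total t 1 with h1 | h1
      · rw [τ2_of_le h1]; simp
      · rw [I1_of_ge h1, mul_comm (τ2 0 t)]
    rw [hv]
    exact h.hasDerivWithinAt

/-- a function on `[0,∞)` with vanishing derivative is constant -/
lemma const_of_deriv_zero {f : ℝ → ℝ} (h : ∀ t, 0 ≤ t → HasDerivWithinAt f 0 (Ici 0) t) :
    ∀ t, 0 ≤ t → f t = f 0 := by
  intro t ht
  have hc : ContinuousOn f (Icc 0 t) := fun s hs =>
    (h s hs.1).continuousWithinAt.mono Icc_subset_Ici_self
  refine constant_of_has_deriv_right_zero hc (fun s hs => ?_) t ⟨ht, le_rfl⟩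
  exact (h s hs.1).mono (Ici_subset_Ici.mpr hs.1)

lemma trajectory_eq {X : ℝ → R3} (hX : IsTrajectory (vel c G) 0 X) :
    ∀ t, 0 ≤ t → X t 2 = G 0 (c * ZZ) * I2 t := by
  obtain ⟨h0, hd⟩ := hX
  have hcomp : ∀ i t, 0 ≤ t → HasDerivWithinAt (fun s => X s i) (vel c G t (X t) i) (Ici 0) t := by
    intro i t ht
    exact (hasDerivWithinAt_pi.mp (hd t ht)) i
  have h1 : ∀ t, 0 ≤ t → X t 1 = c * I1 t := by
    intro t ht
    have hz := const_of_deriv_zero (f := fun s => X s 1 - c * I1 s) (fun s hs => by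
      have := (hcomp 1 s hs).sub (((hasDerivAt_I1 s).const_mul c).hasDerivWithinAt (s := Ici 0))
      refine this.congr_deriv ?_
      simp [vel]) t ht
    simp only [h0] at hz
    have : I1 0 = 0 := by unfold I1; simp
    rw [this] at hz
    simp at hz
    linarith
  intro t ht
  have hz := const_of_deriv_zero (f := fun s => X s 2 - G 0 (c * ZZ) * I2 s) (fun s hs => by
    have := (hcomp 2 s hs).sub (((hasDerivAt_I2 s).const_mul (G 0 (c * ZZ))).hasDerivWithinAt (s := Ici 0))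
    refine this.congr_deriv ?_
    have hv : vel c G s (X s) 2 = τ2 0 s * G 0 (X s 1) := by simp [vel]
    rw [hv, h1 s hs]
    rcases le_total s 1 with h | h
    · rw [τ2_of_le h]; ring
    · rw [I1_of_ge h]; ring) t ht
  simp only [h0] at hz
  have : I2 0 = 0 := by unfold I2; simp
  rw [this] at hz
  simp at hz
  linarith

lemma enters_iff {X : ℝ → R3} (hX : IsTrajectory (vel c G) 0 X) (hG0 : 0 ≤ G 0 (c * ZZ)) :
    (∃ t, 0 ≤ t ∧ X t ∈ OO) ↔ 0 < G 0 (c * ZZ) := by
  have hX2 := trajectory_eq hX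
  constructor
  · rintro ⟨t, ht, hO⟩
    rcases hG0.lt_or_eq with h | h
    · exact h
    · exfalso
      have : X t 2 = 0 := by rw [hX2 t ht, ← h, zero_mul]
      unfold OO at hO
      simp only [mem_ofPred_eq, this] at hO
      norm_num at hO
  · intro hg
    -- find n with g * n * Z ≥ 1/2
    obtain ⟨n, hn⟩ := exists_nat_gt (1 / 2 / (G 0 (c * ZZ) * ZZ))
    have hgz : 0 < G 0 (c * ZZ) * ZZ := mul_pos hg ZZ_pos
    rw [div_lt_iff₀ hgz] at hn
    have hcont : ContinuousOn (fun t => G 0 (c * ZZ) * I2 t) (Icc 0 ((n : ℝ) + 1)) :=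
      (continuous_const.mul I2_cont).continuousOn
    have hn0 : (0 : ℝ) ≤ (n : ℝ) + 1 := by positivity
    have hivt := intermediate_value_Icc hn0 hcont
    have hm : (1 / 2 : ℝ) ∈ Icc (G 0 (c * ZZ) * I2 0) (G 0 (c * ZZ) * I2 ((n : ℝ) + 1)) := by
      constructor
      · have : I2 0 = 0 := by unfold I2; simp
        rw [this]; norm_num
      · rw [I2_nat]
        linarith
    obtain ⟨t, ht, hval⟩ := hivt hm
    refine ⟨t, ht.1, ?_⟩
    unfold OO
    simp only [mem_ofPred_eq]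
    rw [hX2 t ht.1]
    simp only at hval
    rw [hval]
    rw [show 2 * Real.pi * (1 / 2) = Real.pi by ring, Real.cos_pi]
    norm_num

end

end Vale.Agent.P113
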