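import Vale.Agent.P113.Mixed
import Vale.Agent.P113.Energy
import Vale.Agent.P113.Traj

/-! The main theorem. -/

namespace Vale.Agent.P113

open Set
open scoped ContDiff

lemma GG_periodic : ∀ j y (k : ℤ), G QQ aa j (y + k) = G QQ aa j y :=
  fun j y k => G_periodic j y k

lemma unique_global {ν : ℝ} (hν : 0 < ν) (N : ℕ) :
    IsUniqueGlobalSmoothSolution ν (ff ν N) (vel (cN N) (G QQ aa)) (fun _ _ => 0) := by
  refine ⟨contDiff_vel isTower_GG, contDiff_const, fun T hT => ?_⟩
  have h := classical (ν := ν) (c := cN N) isTower_GG GG_periodic hT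
  refine ⟨h, fun v q hv t ht x => ?_⟩
  exact uniqueness hν.le hT h hv t ht x

lemma enters_iff_halts {M : Machine} {w : List ℕ} {X : ℝ → R3}
    (hX : IsTrajectory (vel (cN (Encodable.encode (M, w))) (G QQ aa)) 0 X) :
    (∃ t, 0 ≤ t ∧ X t ∈ OO) ↔ Halts M w := by
  set N := Encodable.encode (M, w) with hN
  have h0 : 0 ≤ G QQ aa 0 (cN N * ZZ) := by
    rcases (aa_nonneg N).eq_or_lt with h | h
    · exact (G_at_zero h.symm).ge
    · exact (G_at_pos h).le
  rw [enters_iff hX h0]
  constructor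
  · intro h
    have hpos : 0 < aa N := by
      rcases (aa_nonneg N).eq_or_lt with h' | h'
      · rw [G_at_zero h'.symm] at h
        exact absurd h (lt_irrefl _)
      · exact h'
    exact (exists_hk_iff M w).mp ((aa_pos_iff N).mp hpos)
  · intro h
    exact G_at_pos ((aa_pos_iff N).mpr ((exists_hk_iff M w).mpr h))

theorem main (ν : ℝ) (hν : 0 < ν) (hc : IsComputableReal ν) :
    ∃ (a : R3) (O : Set R3) (comp : Machine × List ℕ → Nat.Partrec.Code)
      (f : Machine → List ℕ → ℝ → R3 → R3),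
      IsOpenTorusSet O ∧ IsForceCompiler comp f ∧
      ∀ (M : Machine) (w : List ℕ), ∃ (u : ℝ → R3 → R3) (p : ℝ → R3 → ℝ),
        IsUniqueGlobalSmoothSolution ν (f M w) u p ∧ (∃ X, IsTrajectory u a X) ∧
        ∀ X, IsTrajectory u a X → ((∃ t, 0 ≤ t ∧ X t ∈ O) ↔ Halts M w) := by
  obtain ⟨comp, hcomp, hprog⟩ := exists_compiler hc
  refine ⟨0, OO, comp, fun M w => ff ν (Encodable.encode (M, w)), isOpenTorusSet_OO,
    ⟨hcomp, fun M w => ⟨isSmoothForce_force isTower_GG GG_periodic, hprog M w⟩, 1, zero_le_one,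
      fun M w w' t x ht => force_indep ht x, fun M => ⟨1, one_pos, fun w t x ht => force_per ht x⟩⟩, ?_⟩
  intro M w
  exact ⟨vel (cN (Encodable.encode (M, w))) (G QQ aa), fun _ _ => 0, unique_global hν _,
    ⟨_, isTrajectory_XX⟩, fun X hX => enters_iff_halts hX⟩

end Vale.Agent.P113
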