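import Vale.Agent.P113.Eff

/-! Mixed derivatives of the force, and the force compiler. -/

namespace Vale.Agent.P113

/-- weighted count in a list of directions -/
def cnt (g : Option (Fin 3) → ℕ) (l : List (Option (Fin 3))) : ℕ := l.foldr (fun d s => g d + s) 0

/-- indicator of time directions, of `∂₁`, and of `∂₀, ∂₂` -/
def gT (d : Option (Fin 3)) : ℕ := if d = none then 1 else 0
def gY (d : Option (Fin 3)) : ℕ := if d = some 1 then 1 else 0
def gO (d : Option (Fin 3)) : ℕ := if d = some 0 ∨ d = some 2 then 1 else 0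

lemma computable_cnt (g : Option (Fin 3) → ℕ) : Computable (cnt g) := by
  have h : Primrec₂ fun (_ : List (Option (Fin 3))) (y : Option (Fin 3) × ℕ) => g y.1 + y.2 :=
    Primrec.nat_add.comp ((Primrec.dom_finite g).comp (Primrec.fst.comp Primrec.snd))
      (Primrec.snd.comp Primrec.snd)
  exact (Primrec.list_foldr Primrec.id (Primrec.const 0) h).to_comp

/-- third component of the force and its derivatives -/
noncomputable def Phi (ν : ℝ) (G : ℕ → ℝ → ℝ) (m j : ℕ) (t : ℝ) (x : R3) : ℝ :=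
  τ2 (m + 1) t * G j (x 1) - ν * (τ2 m t * G (j + 2) (x 1))

/-- second component of the force and its derivatives -/
noncomputable def Psi (c : ℝ) (m : ℕ) (t : ℝ) (_ : R3) : ℝ := c * τ1 (m + 1) t

section

variable {ν c : ℝ} {G : ℕ → ℝ → ℝ} (hG : IsTower G)

lemma dirDeriv_zero (d : Option (Fin 3)) : dirDeriv d (fun _ _ => (0 : ℝ)) = fun _ _ => 0 := by
  cases d <;> (funext t x; simp [dirDeriv])

lemma dirDeriv_Psi_none (m : ℕ) : dirDeriv none (Psi c m) = Psi c (m + 1) := by
  funext t x
  exact ((tower_τ1 (m + 1) t).const_mul c).deriv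

lemma dirDeriv_Psi_some (i : Fin 3) (m : ℕ) : dirDeriv (some i) (Psi c m) = fun _ _ => 0 := by
  funext t x
  simp [dirDeriv, Psi]

lemma dirDeriv_Phi_none (m j : ℕ) : dirDeriv none (Phi ν G m j) = Phi ν G (m + 1) j := by
  funext t x
  exact (((tower_τ2 (m + 1) t).mul_const (G j (x 1))).sub
    (((tower_τ2 m t).mul_const (G (j + 2) (x 1))).const_mul ν)).deriv

include hG in
lemma dirDeriv_Phi_one (m j : ℕ) : dirDeriv (some 1) (Phi ν G m j) = Phi ν G m (j + 1) := by
  funext t x
  simp only [dirDeriv, Phi, Function.update_self]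
  have h := ((hG j (x 1)).const_mul (τ2 (m + 1) t)).sub
    (((hG (j + 2) (x 1)).const_mul (τ2 m t)).const_mul ν)
  refine h.deriv.trans ?_
  rw [show j + 1 + 2 = j + 2 + 1 by ring]

lemma dirDeriv_Phi_other {i : Fin 3} (hi : i ≠ 1) (m j : ℕ) :
    dirDeriv (some i) (Phi ν G m j) = fun _ _ => 0 := by
  funext t x
  simp only [dirDeriv, Phi]
  have : ∀ s, Function.update x i s 1 = x 1 := fun s => Function.update_of_ne hi.symm _ _
  simp only [this]
  simp

lemma mixed_zero (l : List (Option (Fin 3))) :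
    mixedDeriv l (fun _ _ => (0 : ℝ)) = fun _ _ => 0 := by
  induction l with
  | nil => rfl
  | cons d l ih =>
    change dirDeriv d (mixedDeriv l (fun _ _ => (0 : ℝ))) = _
    rw [ih, dirDeriv_zero]

lemma mixed_Psi (l : List (Option (Fin 3))) :
    mixedDeriv l (Psi c 0) = if cnt gO l + cnt gY l = 0 then Psi c (cnt gT l) else fun _ _ => 0 := by
  induction l with
  | nil => simp [cnt]; rfl
  | cons d l ih =>
    change dirDeriv d (mixedDeriv l (Psi c 0)) = _
    rw [ih]
    have e1 : cnt gO (d :: l) = gO d + cnt gO l := rfl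
    have e2 : cnt gY (d :: l) = gY d + cnt gY l := rfl
    have e3 : cnt gT (d :: l) = gT d + cnt gT l := rfl
    rw [e1, e2, e3]
    rcases d with _ | i
    · have a1 : gO none = 0 := by simp [gO]
      have a2 : gY none = 0 := by simp [gY]
      have a3 : gT none = 1 := by simp [gT]
      rw [a1, a2, a3]
      simp only [zero_add]
      split_ifs with h
      · rw [dirDeriv_Psi_none, add_comm]
      · exact dirDeriv_zero _
    · have a : 0 < gO (some i) + gY (some i) := by
        fin_cases i <;> simp [gO, gY]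
      rw [if_neg (show ¬(gO (some i) + cnt gO l + (gY (some i) + cnt gY l) = 0) by omega)]
      split_ifs with h
      · exact dirDeriv_Psi_some i _
      · exact dirDeriv_zero _

include hG in
lemma mixed_Phi (l : List (Option (Fin 3))) :
    mixedDeriv l (Phi ν G 0 0) =
      if cnt gO l = 0 then Phi ν G (cnt gT l) (cnt gY l) else fun _ _ => 0 := by
  induction l with
  | nil => simp [cnt]; rfl
  | cons d l ih =>
    change dirDeriv d (mixedDeriv l (Phi ν G 0 0)) = _
    rw [ih]
    have e1 : cnt gO (d :: l) = gO d + cnt gO l := rfl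
    have e2 : cnt gY (d :: l) = gY d + cnt gY l := rfl
    have e3 : cnt gT (d :: l) = gT d + cnt gT l := rfl
    rw [e1, e2, e3]
    rcases d with _ | i
    · have a1 : gO none = 0 := by simp [gO]
      have a2 : gY none = 0 := by simp [gY]
      have a3 : gT none = 1 := by simp [gT]
      rw [a1, a2, a3]
      simp only [zero_add]
      split_ifs with h
      · rw [dirDeriv_Phi_none, add_comm]
      · exact dirDeriv_zero _
    · by_cases hi : i = 1
      · subst hi
        have a1 : gO (some 1) = 0 := by simp [gO]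
        have a2 : gY (some 1) = 1 := by simp [gY]
        have a3 : gT (some 1) = 0 := by simp [gT]
        rw [a1, a2, a3]
        simp only [zero_add]
        split_ifs with h
        · rw [dirDeriv_Phi_one hG, add_comm]
        · exact dirDeriv_zero _
      · have a : 0 < gO (some i) := by
          fin_cases i
          · simp [gO]
          · exact absurd rfl hi
          · simp [gO]
        rw [if_neg (show ¬(gO (some i) + cnt gO l = 0) by omega)]
        split_ifs with h
        · exact dirDeriv_Phi_other hi _ _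
        · exact dirDeriv_zero _

end

/-- the force for the code `N` -/
noncomputable def ff (ν : ℝ) (N : ℕ) : ℝ → R3 → R3 := force ν (cN N) (G QQ aa)

/-- the value asked for by a query -/
noncomputable def qval (ν : ℝ) (N : ℕ) (Q : Query) : ℝ :=
  mixedDeriv Q.2.1 (fun t x => ff ν N t x Q.1) (ratVal Q.2.2.1.1 : ℚ)
        ![(ratVal Q.2.2.1.2.1 : ℝ), (ratVal Q.2.2.1.2.2.1 : ℝ), (ratVal Q.2.2.1.2.2.2 : ℝ)]

lemma isTower_GG : IsTower (G QQ aa) := G_tower QQ_ge aa_nonneg aa_le

lemma qval_eq (ν : ℝ) (N : ℕ) (Q : Query) : qval ν N Q =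
    if Q.1 = 2 then (if cnt gO Q.2.1 < 1 then
      τ2 (cnt gT Q.2.1 + 1) (rv Q.2.2.1.1) * G QQ aa (cnt gY Q.2.1) (rv Q.2.2.1.2.2.1) -
        ν * (τ2 (cnt gT Q.2.1) (rv Q.2.2.1.1) * G QQ aa (cnt gY Q.2.1 + 2) (rv Q.2.2.1.2.2.1)) else 0)
    else if Q.1 = 1 then (if cnt gO Q.2.1 + cnt gY Q.2.1 < 1 then
      cN N * τ1 (cnt gT Q.2.1 + 1) (rv Q.2.2.1.1) else 0)
    else 0 := by
  obtain ⟨i, l, ⟨qt, q0, q1, q2⟩, n⟩ := Q
  simp only [rv_eq]
  have h2 : (fun t x => ff ν N t x 2) = Phi ν (G QQ aa) 0 0 := by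
    funext t x
    simp [ff, force, Phi]
  have h1 : (fun t x => ff ν N t x 1) = Psi (cN N) 0 := by
    funext t x
    simp [ff, force, Psi]
  have h0 : (fun t x => ff ν N t x 0) = fun _ _ => 0 := by
    funext t x
    simp [ff, force]
  unfold qval
  simp only
  fin_cases i
  · change mixedDeriv l (fun t x => ff ν N t x 0) _ _ = _
    rw [h0, mixed_zero]
    simp
  · change mixedDeriv l (fun t x => ff ν N t x 1) _ _ = _
    rw [h1, mixed_Psi]
    simp only [Nat.lt_one_iff]
    split_ifs <;> simp_all [Psi]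
  · change mixedDeriv l (fun t x => ff ν N t x 2) _ _ = _
    rw [h2, mixed_Phi isTower_GG]
    simp only [Nat.lt_one_iff]
    split_ifs <;> simp_all [Phi]

lemma CRF_const {α : Type} [Primcodable α] {ν : ℝ} (hν : IsComputableReal ν) :
    CRF (fun _ : α => ν) := by
  obtain ⟨A, hA, h⟩ := hν
  refine ⟨fun z => A (2 ^ z.2), hA.comp (cpow (ccst 2) Computable.snd), fun x n => ?_⟩
  rw [rv_eq]
  refine (h (2 ^ n)).trans ?_
  rw [one_div_pow]
  apply one_div_le_one_div_of_le (by positivity)
  push_cast; linarith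

/-- input data of the evaluation: the code of the machine and the query -/
abbrev NQ := ℕ × Query

lemma cq_i : Computable fun z : NQ => z.2.1 := Computable.fst.comp Computable.snd
lemma cq_l : Computable fun z : NQ => z.2.2.1 :=
  Computable.fst.comp (Computable.snd.comp Computable.snd)
lemma cq_p : Computable fun z : NQ => z.2.2.2.1 :=
  Computable.fst.comp (Computable.snd.comp (Computable.snd.comp Computable.snd))
lemma cq_n : Computable fun z : NQ => z.2.2.2.2 :=
  Computable.snd.comp (Computable.snd.comp (Computable.snd.comp Computable.snd))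
lemma cq_t : Computable fun z : NQ => z.2.2.2.1.1 := Computable.fst.comp cq_p
lemma cq_y : Computable fun z : NQ => z.2.2.2.1.2.2.1 :=
  Computable.fst.comp (Computable.snd.comp (Computable.snd.comp cq_p))
lemma cq_O : Computable fun z : NQ => cnt gO z.2.2.1 := (computable_cnt gO).comp cq_l
lemma cq_T : Computable fun z : NQ => cnt gT z.2.2.1 := (computable_cnt gT).comp cq_l
lemma cq_Y : Computable fun z : NQ => cnt gY z.2.2.1 := (computable_cnt gY).comp cq_l

lemma CRF_t1 : CRF fun z : NQ => τ2 (cnt gT z.2.2.1 + 1) (rv z.2.2.2.1.1) :=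
  CRF_τ2.comp (h := fun z : NQ => (cnt gT z.2.2.1 + 1, z.2.2.2.1.1)) ((cadd cq_T (ccst 1)).pair cq_t)
lemma CRF_t0 : CRF fun z : NQ => τ2 (cnt gT z.2.2.1) (rv z.2.2.2.1.1) :=
  CRF_τ2.comp (h := fun z : NQ => (cnt gT z.2.2.1, z.2.2.2.1.1)) (cq_T.pair cq_t)
lemma CRF_g0 : CRF fun z : NQ => G QQ aa (cnt gY z.2.2.1) (rv z.2.2.2.1.2.2.1) :=
  CRF_G.comp (h := fun z : NQ => (cnt gY z.2.2.1, z.2.2.2.1.2.2.1)) (cq_Y.pair cq_y)
lemma CRF_g2 : CRF fun z : NQ => G QQ aa (cnt gY z.2.2.1 + 2) (rv z.2.2.2.1.2.2.1) :=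
  CRF_G.comp (h := fun z : NQ => (cnt gY z.2.2.1 + 2, z.2.2.2.1.2.2.1))
    ((cadd cq_Y (ccst 2)).pair cq_y)
lemma CRF_s1 : CRF fun z : NQ => τ1 (cnt gT z.2.2.1 + 1) (rv z.2.2.2.1.1) :=
  CRF_τ1.comp (h := fun z : NQ => (cnt gT z.2.2.1 + 1, z.2.2.2.1.1)) ((cadd cq_T (ccst 1)).pair cq_t)
lemma CRF_cc : CRF fun z : NQ => cN z.1 := CRF_cN.comp (h := fun z : NQ => z.1) Computable.fst
lemma cq_i2 : Computable fun z : NQ => decide (z.2.1 = 2) :=
  (PrimrecRel.decide Primrec.eq).to_comp.comp cq_i (Computable.const 2)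
lemma cq_i1 : Computable fun z : NQ => decide (z.2.1 = 1) :=
  (PrimrecRel.decide Primrec.eq).to_comp.comp cq_i (Computable.const 1)
lemma cq_O1 : Computable fun z : NQ => decide (cnt gO z.2.2.1 < 1) := clt cq_O (ccst 1)
lemma cq_OY : Computable fun z : NQ => decide (cnt gO z.2.2.1 + cnt gY z.2.2.1 < 1) :=
  clt (cadd cq_O cq_Y) (ccst 1)

lemma CRF_qval {ν : ℝ} (hν : IsComputableReal ν) : CRF (fun z : NQ => qval ν z.1 z.2) := by
  have a1 := CRF.ite cq_O1 ((CRF_t1.mul CRF_g0).sub ((CRF_const hν).mul (CRF_t0.mul CRF_g2)))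
    CRF.zero
  have a2 := CRF.ite cq_OY (CRF_cc.mul CRF_s1) CRF.zero
  have a3 := CRF.ite cq_i1 a2 CRF.zero
  have a4 := CRF.ite cq_i2 a1 a3
  exact a4.congr fun z => qval_eq ν z.1 z.2

/-- programs from computable functions -/
lemma exists_program {α β : Type} [Primcodable α] [Primcodable β] {F : α → β} (hF : Computable F) :
    ∃ c : Nat.Partrec.Code, ∀ a, Encodable.encode (F a) ∈ c.eval (Encodable.encode a) := by
  have h : Nat.Partrec fun n => Part.bind (Encodable.decode (α := α) n) fun a =>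
    ((F : α →. β) a).map Encodable.encode := hF
  obtain ⟨c, hc⟩ := Nat.Partrec.Code.exists_code.mp h
  refine ⟨c, fun a => ?_⟩
  rw [hc]
  simp

/-- the compiler -/
theorem exists_compiler {ν : ℝ} (hν : IsComputableReal ν) :
    ∃ comp : Machine × List ℕ → Nat.Partrec.Code, Computable comp ∧
      ∀ M w, Computes (comp (M, w)) (ff ν (Encodable.encode (M, w))) := by
  obtain ⟨A, hA, h⟩ := CRF_qval hν
  have hF : Computable fun z : ℕ × Query => A (z, z.2.2.2.2) :=
    hA.comp (Computable.id.pair (Computable.snd.comp (Computable.snd.comp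
      (Computable.snd.comp Computable.snd))))
  obtain ⟨c, hc⟩ := exists_program hF
  refine ⟨fun Mw => Nat.Partrec.Code.curry c (Encodable.encode Mw), ?_, ?_⟩
  · exact Nat.Partrec.Code.primrec₂_curry.to_comp.comp (Computable.const c) Computable.encode
  · intro M w Q
    refine ⟨A ((Encodable.encode (M, w), Q), Q.2.2.2), ?_, ?_⟩
    · rw [Nat.Partrec.Code.eval_curry]
      exact hc (Encodable.encode (M, w), Q)
    · have h1 := h (Encodable.encode (M, w), Q) Q.2.2.2
      rw [rv_eq] at h1
      refine le_trans h1 ?_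
      rw [one_div_pow]
      apply one_div_le_one_div_of_le (by positivity)
      have : Q.2.2.2 + 1 ≤ 2 ^ Q.2.2.2 := Nat.lt_two_pow_self
      exact_mod_cast this

end Vale.Agent.P113
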