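import Vale.Agent.P113.CR

/-! Simulation of Turing machines by a computable function; the weights `a_N`. -/

namespace Vale.Agent.P113

/-- simulated configuration: state, left half of the tape (nearest cell first), right half -/
abbrev SC := ℕ × List ℕ × List ℕ

/-- the effect of a rule -/
def applyRule (s : SC) (r : Rule) : SC :=
  bif decide ((r.2.2.2.2 : ℕ) = 0) then
    (r.2.2.1, s.2.1.tail, s.2.1.headI :: r.2.2.2.1 :: s.2.2.tail)
  else bif decide ((r.2.2.2.2 : ℕ) = 1) then (r.2.2.1, s.2.1, r.2.2.2.1 :: s.2.2.tail)
  else (r.2.2.1, r.2.2.2.1 :: s.2.1, s.2.2.tail)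

/-- simulated step -/
def sstep (M : Machine) (s : SC) : SC :=
  ((M.1.find? (fun r => decide (r.1 = s.1 ∧ r.2.1 = s.2.2.headI))).map (applyRule s)).getD s

/-- the relation between configurations -/
structure Rel (c : Cfg) (s : SC) : Prop where
  q : c.q = s.1
  r : ∀ i : ℕ, c.tape (c.h + i) = s.2.2.getD i 0
  l : ∀ i : ℕ, c.tape (c.h - 1 - i) = s.2.1.getD i 0

lemma tail_getD (L : List ℕ) (i : ℕ) : L.tail.getD i 0 = L.getD (i + 1) 0 := by
  cases L <;> simp

lemma headI_getD (L : List ℕ) : L.headI = L.getD 0 0 := by
  cases L <;> simp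

lemma rel_init (w : List ℕ) : Rel (initCfg w) (0, [], w) where
  q := rfl
  r := by intro i; simp [initCfg]
  l := by
    intro i
    simp only [initCfg, List.getD_nil]
    rw [if_neg (by omega)]

lemma rel_step {M : Machine} {c : Cfg} {s : SC} (h : Rel c s) : Rel (step M c) (sstep M s) := by
  obtain ⟨hq, hr, hl⟩ := h
  have hread : c.tape c.h = s.2.2.headI := by
    have := hr 0
    rw [headI_getD]
    simpa using this
  unfold step sstep
  rw [hq, hread]
  cases hf : M.1.find? (fun r => decide (r.1 = s.1 ∧ r.2.1 = s.2.2.headI)) with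
  | none => exact ⟨hq, hr, hl⟩
  | some r =>
    obtain ⟨q0, a0, q', a', d⟩ := r
    simp only [Option.map_some, Option.getD_some]
    fin_cases d
    · -- left
      refine ⟨rfl, ?_, ?_⟩
      · intro i
        simp only [applyRule, Fin.zero_eta, Fin.val_zero, decide_true, cond_true]
        rcases i with _ | _ | i
        · simp only [List.getD_cons_zero]
          rw [Function.update_of_ne (by simp), headI_getD, ← hl 0]
          congr 1; simp
        · simp only [List.getD_cons_succ, List.getD_cons_zero]
          have : c.h + ((0 : ℕ) : ℤ) - 1 + ((0 + 1 : ℕ) : ℤ) = c.h := by simp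
          rw [this, Function.update_self]
        · simp only [List.getD_cons_succ]
          rw [Function.update_of_ne (by push_cast; omega), tail_getD, ← hr (i + 1)]
          congr 1; push_cast; ring
      · intro i
        simp only [applyRule, Fin.zero_eta, Fin.val_zero, decide_true, cond_true]
        rw [Function.update_of_ne (by push_cast; omega), tail_getD, ← hl (i + 1)]
        congr 1; push_cast; ring
    · -- stay
      refine ⟨rfl, ?_, ?_⟩
      · intro i
        simp only [applyRule, Fin.mk_one, Fin.val_one, decide_true, cond_true, one_ne_zero, decide_false,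
          cond_false]
        rcases i with _ | i
        · simp only [List.getD_cons_zero]
          have : c.h + ((1 : ℕ) : ℤ) - 1 + ((0 : ℕ) : ℤ) = c.h := by simp
          rw [this, Function.update_self]
        · simp only [List.getD_cons_succ]
          rw [Function.update_of_ne (by push_cast; omega), tail_getD, ← hr (i + 1)]
          congr 1; push_cast; ring
      · intro i
        simp only [applyRule, Fin.mk_one, Fin.val_one, decide_true, cond_true, one_ne_zero, decide_false,
          cond_false]
        rw [Function.update_of_ne (by push_cast; omega), ← hl i]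
        congr 1; push_cast; ring
    · -- right
      have e : applyRule s (q0, a0, q', a', (2 : Fin 3)) = (q', a' :: s.2.1, s.2.2.tail) := rfl
      have ez : c.h + (((2 : Fin 3) : ℕ) : ℤ) - 1 = c.h + 1 := by
        have : (((2 : Fin 3) : ℕ) : ℤ) = 2 := rfl
        rw [this]; ring
      refine ⟨rfl, ?_, ?_⟩
      · intro i
        change Function.update c.tape c.h a' (c.h + (((2 : Fin 3) : ℕ) : ℤ) - 1 + i) =
          s.2.2.tail.getD i 0
        rw [ez, Function.update_of_ne (by omega), tail_getD, ← hr (i + 1)]
        congr 1; push_cast; ring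
      · intro i
        change Function.update c.tape c.h a' (c.h + (((2 : Fin 3) : ℕ) : ℤ) - 1 - 1 - i) =
          (a' :: s.2.1).getD i 0
        rw [ez]
        rcases i with _ | i
        · have : c.h + 1 - 1 - ((0 : ℕ) : ℤ) = c.h := by push_cast; ring
          rw [this, Function.update_self]
          simp
        · rw [Function.update_of_ne (by push_cast; omega)]
          simp only [List.getD_cons_succ]
          rw [← hl i]
          congr 1; push_cast; ring

lemma rel_iter (M : Machine) (w : List ℕ) (k : ℕ) :
    Rel ((step M)^[k] (initCfg w)) ((sstep M)^[k] (0, [], w)) := by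
  induction k with
  | zero => exact rel_init w
  | succ k ih => rw [Function.iterate_succ_apply', Function.iterate_succ_apply']; exact rel_step ih


/-! ### Computability of the simulation -/

lemma find?_eq_foldr {α : Type} (p : α → Bool) (L : List α) :
    L.find? p = L.foldr (fun r acc => bif p r then some r else acc) none := by
  induction L with
  | nil => rfl
  | cons r L ih =>
    rw [List.find?_cons, List.foldr_cons]
    cases h : p r
    · simpa using ih
    · simp

lemma primrec_applyRule : Primrec₂ applyRule := by
  have d : Primrec fun z : SC × Rule => ((z.2.2.2.2.2 : Fin 3) : ℕ) :=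
    Primrec.fin_val.comp (Primrec.snd.comp (Primrec.snd.comp (Primrec.snd.comp
      (Primrec.snd.comp Primrec.snd))))
  have q' : Primrec fun z : SC × Rule => z.2.2.2.1 :=
    Primrec.fst.comp (Primrec.snd.comp (Primrec.snd.comp Primrec.snd))
  have a' : Primrec fun z : SC × Rule => z.2.2.2.2.1 :=
    Primrec.fst.comp (Primrec.snd.comp (Primrec.snd.comp (Primrec.snd.comp Primrec.snd)))
  have L : Primrec fun z : SC × Rule => z.1.2.1 := Primrec.fst.comp (Primrec.snd.comp Primrec.fst)
  have R : Primrec fun z : SC × Rule => z.1.2.2 := Primrec.snd.comp (Primrec.snd.comp Primrec.fst)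
  have c0 : Primrec fun z : SC × Rule => decide (((z.2.2.2.2.2 : Fin 3) : ℕ) = 0) :=
    (PrimrecRel.comp Primrec.eq d (Primrec.const 0)).decide
  have c1 : Primrec fun z : SC × Rule => decide (((z.2.2.2.2.2 : Fin 3) : ℕ) = 1) :=
    (PrimrecRel.comp Primrec.eq d (Primrec.const 1)).decide
  refine Primrec.cond c0 ?_ (Primrec.cond c1 ?_ ?_)
  · exact q'.pair ((Primrec.list_tail.comp L).pair
      (Primrec.list_cons.comp (Primrec.list_headI.comp L)
        (Primrec.list_cons.comp a' (Primrec.list_tail.comp R))))
  · exact q'.pair (L.pair (Primrec.list_cons.comp a' (Primrec.list_tail.comp R)))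
  · exact q'.pair ((Primrec.list_cons.comp a' L).pair (Primrec.list_tail.comp R))

lemma primrec_sstep : Primrec₂ sstep := by
  have hp : Primrec₂ fun (z : Machine × SC) (y : Rule × Option Rule) =>
      bif decide (y.1.1 = z.2.1 ∧ y.1.2.1 = z.2.2.2.headI) then some y.1 else y.2 := by
    have e1 : Primrec fun z : (Machine × SC) × (Rule × Option Rule) => z.2.1.1 :=
      Primrec.fst.comp (Primrec.fst.comp Primrec.snd)
    have e2 : Primrec fun z : (Machine × SC) × (Rule × Option Rule) => z.1.2.1 :=
      Primrec.fst.comp (Primrec.snd.comp Primrec.fst)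
    have e3 : Primrec fun z : (Machine × SC) × (Rule × Option Rule) => z.2.1.2.1 :=
      Primrec.fst.comp (Primrec.snd.comp (Primrec.fst.comp Primrec.snd))
    have e4 : Primrec fun z : (Machine × SC) × (Rule × Option Rule) => z.1.2.2.2.headI :=
      Primrec.list_headI.comp (Primrec.snd.comp (Primrec.snd.comp (Primrec.snd.comp Primrec.fst)))
    refine Primrec.cond ?_ ?_ ?_
    · exact ((PrimrecRel.comp Primrec.eq e1 e2).and (PrimrecRel.comp Primrec.eq e3 e4)).decide
    · exact Primrec.option_some.comp (Primrec.fst.comp Primrec.snd)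
    · exact Primrec.snd.comp Primrec.snd
  have hf : Primrec fun z : Machine × SC =>
      z.1.1.find? (fun r => decide (r.1 = z.2.1 ∧ r.2.1 = z.2.2.2.headI)) := by
    refine (Primrec.list_foldr (f := fun z : Machine × SC => z.1.1) (g := fun _ => none)
      (Primrec.fst.comp Primrec.fst) (Primrec.const none) hp).of_eq fun z => ?_
    rw [find?_eq_foldr]
  have hmap : Primrec fun z : Machine × SC =>
      (z.1.1.find? (fun r => decide (r.1 = z.2.1 ∧ r.2.1 = z.2.2.2.headI))).map (applyRule z.2) :=
    Primrec.option_map hf (primrec_applyRule.comp (Primrec.snd.comp Primrec.fst) Primrec.snd)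
  exact Primrec.option_getD.comp hmap Primrec.snd

/-- the state of the simulated machine after `k` steps is a halting state -/
def halted (z : (Machine × List ℕ) × ℕ) : Bool :=
  decide (((sstep z.1.1)^[z.2] (0, [], z.1.2)).1 ∈ z.1.1.2)

lemma primrec_halted : Primrec halted := by
  have h1 : Primrec fun z : (Machine × List ℕ) × ℕ => (sstep z.1.1)^[z.2] (0, [], z.1.2) := by
    refine Primrec.nat_iterate Primrec.snd ?_ ?_
    · exact (Primrec.const 0).pair ((Primrec.const []).pair (Primrec.snd.comp Primrec.fst))
    · exact primrec_sstep.comp (Primrec.fst.comp (Primrec.fst.comp Primrec.fst)) Primrec.snd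
  have h2 : PrimrecRel fun (L : List ℕ) (b : ℕ) => ∃ a ∈ L, a = b :=
    PrimrecRel.exists_mem_list Primrec.eq
  have h3 : PrimrecRel fun (L : List ℕ) (b : ℕ) => b ∈ L := h2.of_eq fun L b => by simp
  exact (PrimrecRel.comp h3 (Primrec.snd.comp (Primrec.fst.comp Primrec.fst))
    (Primrec.fst.comp h1)).decide

/-- the same for the machine and the input coded by `N` -/
def hk (z : ℕ × ℕ) : Bool :=
  ((Encodable.decode (α := Machine × List ℕ) z.1).map (fun Mw => halted (Mw, z.2))).getD false

lemma primrec_hk : Primrec hk := by
  unfold hk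
  refine Primrec.option_getD.comp (Primrec.option_map (Primrec.decode.comp Primrec.fst) ?_)
    (Primrec.const false)
  exact primrec_halted.comp (Primrec.snd.pair (Primrec.snd.comp Primrec.fst))

lemma exists_hk_iff (M : Machine) (w : List ℕ) :
    (∃ k, hk (Encodable.encode (M, w), k) = true) ↔ Halts M w := by
  unfold Halts
  refine exists_congr fun k => ?_
  unfold hk
  rw [Encodable.encodek]
  simp only [Option.map_some, Option.getD_some, halted, decide_eq_true_eq]
  rw [(rel_iter M w k).q]

/-- terms of the weights -/
noncomputable def aterm (N k : ℕ) : ℝ := if hk (N, k) = true then (1 / 2) ^ (k + N + 1) else 0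

/-- the weights: positive exactly when the machine halts -/
noncomputable def aa (N : ℕ) : ℝ := ∑' k, aterm N k

lemma aterm_nonneg (N k : ℕ) : 0 ≤ aterm N k := by
  unfold aterm; split_ifs <;> positivity

lemma aterm_le (N k : ℕ) : aterm N k ≤ (1 / 2) ^ k * (1 / 2) ^ (N + 1) := by
  unfold aterm
  split_ifs
  · rw [← pow_add]; exact le_of_eq (by ring_nf)
  · positivity

lemma summable_half : Summable (fun k : ℕ => ((1 / 2 : ℝ)) ^ k) :=
  summable_geometric_of_lt_one (by norm_num) (by norm_num)

lemma summable_aterm (N : ℕ) : Summable (aterm N) :=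
  Summable.of_nonneg_of_le (aterm_nonneg N) (aterm_le N) (summable_half.mul_right _)

lemma aa_nonneg (N : ℕ) : 0 ≤ aa N := tsum_nonneg (aterm_nonneg N)

lemma tsum_half : ∑' k : ℕ, ((1 / 2 : ℝ)) ^ k = 2 := tsum_geometric_two

lemma aa_le (N : ℕ) : aa N ≤ (1 / 2) ^ N := by
  unfold aa
  refine ((summable_aterm N).tsum_le_tsum (aterm_le N) (summable_half.mul_right _)).trans ?_
  rw [tsum_mul_right, tsum_half, pow_succ]
  linarith

lemma aa_pos_iff (N : ℕ) : 0 < aa N ↔ ∃ k, hk (N, k) = true := by
  constructor
  · intro h
    by_contra hcon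
    push Not at hcon
    have : ∀ k, aterm N k = 0 := fun k => if_neg (hcon k)
    unfold aa at h
    simp [this] at h
  · rintro ⟨k, hk⟩
    have h1 : 0 < aterm N k := by unfold aterm; rw [if_pos hk]; positivity
    exact h1.trans_le ((summable_aterm N).le_tsum k fun j _ => aterm_nonneg N j)

lemma CRF_aa : CRF aa := by
  have h1 : CRF (fun z : (ℕ × ℕ) × ℕ => aterm z.1.1 z.2) := by
    unfold aterm
    refine CRF.ite ?_ ?_ CRF.zero
    · refine (primrec_hk.to_comp.comp ((Computable.fst.comp Computable.fst).pair Computable.snd)).of_eq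
        fun z => ?_
      cases hk (z.1.1, z.2) <;> rfl
    · refine (CRF.of_rat (r := fun z : (ℕ × ℕ) × ℕ => ((1, 0, 2 ^ (z.2 + z.1.1 + 1) - 1) : Q3))
        ((ccst 1).pair ((ccst 0).pair (csub (cpow (ccst 2) (cadd (cadd Computable.snd
          (Computable.fst.comp Computable.fst)) (ccst 1))) (ccst 1))))).congr fun z => ?_
      unfold rv
      simp only
      rw [cast_sub_one (by positivity)]
      push_cast
      rw [sub_zero, one_div_pow]
  have h2 : CRF (fun z : ℕ × ℕ => ∑ k ∈ Finset.range z.2, aterm z.1 k) :=
    CRF.sum h1 Computable.snd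
  refine CRF.lim h2 fun N n => ?_
  simp only
  have h3 := (summable_aterm N).sum_add_tsum_nat_add n
  unfold aa
  rw [← h3, add_sub_cancel_left]
  have hsum : Summable (fun k => aterm N (k + n)) := (summable_nat_add_iff n).mpr (summable_aterm N)
  rw [abs_of_nonneg (tsum_nonneg fun k => aterm_nonneg N _)]
  have h4 : ∀ k, aterm N (k + n) ≤ (1 / 2) ^ k * ((1 / 2) ^ n * (1 / 2)) := by
    intro k
    refine (aterm_le N (k + n)).trans ?_
    rw [pow_add, mul_assoc]
    refine mul_le_mul_of_nonneg_left ?_ (by positivity)
    refine mul_le_mul_of_nonneg_left ?_ (by positivity)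
    calc (1 / 2 : ℝ) ^ (N + 1) ≤ (1 / 2) ^ 1 :=
          pow_le_pow_of_le_one (by norm_num) (by norm_num) (by omega)
      _ = 1 / 2 := pow_one _
  refine (hsum.tsum_le_tsum h4 (summable_half.mul_right _)).trans ?_
  rw [tsum_mul_right, tsum_half]
  linarith

end Vale.Agent.P113
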